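import Vale.Agent.P281Z.Tp.Core
import Vale.Agent.P281Z.Top2

/-!
# P281Z, block TOP: Fujiki's class, the logarithmic form
-/

open scoped Manifold ContDiff Topology
open Set Filter Function
open Vale.Agent.P272.K Vale.Agent.P285.H281.FD Vale.Agent.P281
open Vale.Agent.P281.H713.TZ.S (Fib kodR kodX kap)
open Vale.Agent.P281.H511.Surf (IsFibration)
open Vale.Agent.P281.H303.StatC (ClassC)
open Vale.Agent.P281Z.Nt

noncomputable section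

namespace Vale.Agent.P281Z.Tp

theorem classC_of (h1 : KY) (h2 : REM) {n : ℕ} (X : Mf n) [ConnectedSpace X.X]
    (h : Top.Fujiki n X.X) : ClassC n X.X := by
  obtain ⟨m, V, _, _, g, _, _, _, hK, hg, hs⟩ := h
  have hg : HolM m n g := hg
  have := ChartedSpace.locallyConnectedSpace (Cm m) V
  have hc : ∀ x : V, IsClopen (connectedComponent x) := fun _ => isClopen_connectedComponent
  obtain ⟨x, hx⟩ : ∃ x, g '' connectedComponent x = univ := by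
    by_contra k
    obtain ⟨t, ht⟩ := isCompact_univ.elim_finite_subcover _ (fun x => (hc x).isOpen)
      fun x _ => mem_iUnion.2 ⟨x, mem_connectedComponent⟩
    refine (Thin.iUnion fun x : t => (h2 m n ⟨V⟩ X g _ hg (an_clopen (hc x.1))).thin
      fun c => k ⟨_, c⟩).ne_univ (eq_univ_of_forall fun y => ?_)
    obtain ⟨z, rfl⟩ := hs y
    obtain ⟨x, a, b⟩ := mem_iUnion₂.1 (ht (mem_univ z))
    exact mem_iUnion.2 ⟨⟨x, a⟩, z, b, rfl⟩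
  obtain ⟨W, i, hi⟩ := SubM.emb (n := m) (d := m) (S := connectedComponent x)
    (fun y hy => ⟨0, Fin.elim0, rfl, ⟨fun a => a.elim0, fun _ _ => linearIndependent_empty_type⟩,
      ((hc x).isOpen.eventually_mem hy).mono fun _ c => ⟨fun _ a => a.elim0, fun _ => c⟩⟩)
    (hc x).isClosed.isCompact
  obtain ⟨Y₁, v, B, k1, k2⟩ := h1 m n W X (fun z => g (i z))
    (hi.conn.2 isConnected_connectedComponent) (hi.kah (M := ⟨V⟩) hK) (hg.comp hi.hol) fun y => by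
      obtain ⟨z, a, rfl⟩ := hx.ge (mem_univ y)
      obtain ⟨w, rfl⟩ := hi.rng.ge a
      exact ⟨w, rfl⟩
  exact ⟨Y₁.X, _, _, v, isModif_of k1, k2⟩

variable {n p : ℕ} {X Y : Type} [TopologicalSpace X] [ChartedSpace (Cm n) X] [TopologicalSpace Y]
  [ChartedSpace (Cm p) Y] {f : X → Y} {Δ : Set X → ℝ}

theorem le_dim (h4 : GEN) (h : IsFibration (Cm n) (Cm p) f Δ) : p ≤ n := by
  obtain ⟨hM, -⟩ := Cio.cin _ _ X Y f Δ h
  have := hM.connY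
  obtain ⟨Q, hQ, hr⟩ := h4 _ p _ _ _ _ (fbOf h).G hM.fibn.hol hM.snc
  obtain ⟨y, hy⟩ := hQ.2.nonempty
  obtain ⟨x, hx⟩ := hM.fibn.surj y
  exact ((hr y hy).sbm hM.fibn.hol hM.snc hx).le

theorem tau_log {M : Fb n p} (hM : M.Ok) {Δ : Set M.X.X → ℝ} (hR : Rep M Δ) {Γ : Set M.Y.X → ℝ}
    (hΓ : J.IsSNC (Cm p) Γ) (hc : ∀ x G, Γ G ≠ 0 → M.f x ∈ G → ∃ D, Δ D = 1 ∧ x ∈ D) {j : ℕ}
    (hj : ∃ (m : ℕ) (k : Set M.Y.X → ℕ) (s : ℕ → M.Y.X → ℂ) (z : M.Y.X), 0 < m ∧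
      (∀ D, (k D : ℝ) = m * Γ D) ∧
      (∀ b, J.IsSection (Cm p) (fun (D : Set M.Y.X) x g => J.IsLocalEq (Cm p) D g x) m k (s b)) ∧
      (∀ D, k D ≠ 0 → ∃ g, J.IsLocalEq (Cm p) D g z ∧ g z ≠ 0) ∧ s 0 z ≠ 0 ∧
      Surjective fun (ξ : Cm p) (b : Fin j) => J.dif (Cm p) (fun w => s (b + 1) w / s 0 w) z ξ) :
    M.Tau j := by
  obtain ⟨m, k, s, z, h1, h2, h3, h4, h5⟩ := hj
  have := hΓ.1.fintype
  have hb : ∀ D, Γ D ≤ 1 := fun D => by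
    obtain ⟨q, a, -, b⟩ := hΓ.2.2.1 D
    exact a ▸ by exact_mod_cast b
  have hc' : ∀ x G, Γ G ≠ 0 → M.f x ∈ G → ∃ l, M.δ l = 1 ∧ x ∈ M.G l := fun x G a b => by
    obtain ⟨D, e, e'⟩ := hc x G a b
    obtain ⟨l, rfl⟩ := hR.supp D (e.trans_ne one_ne_zero)
    exact ⟨l, by exact_mod_cast (hR.val l).symm.trans e, e'⟩
  obtain ⟨m, k1, τ, k2, k3⟩ := kapL_of (i := fun y => y) hΓ holM_id ⟨m, k, s, z, h1, h2,
    fun b y => let ⟨T, g, a, c1, c2, c3⟩ := h3 b y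
      ⟨T, g, a, c1, fun D c => ⟨_, c2 D c, .of_forall fun _ => rfl⟩, c3⟩,
    fun D c => (h4 D c).imp fun g c => ⟨⟨g, c.1, .of_forall fun _ => rfl⟩, c.2⟩, h5⟩
  refine ⟨m, _, τ, k1, snc_thin_off (snc_snc hΓ), fun b => tb_base hM.fibn.hol hM.snc
    (snc_snc hΓ) (fun x c j a => let ⟨l, _, e⟩ := hc' x _ j.2 a; c l e)
    (fun l => by exact_mod_cast (hM.bdry l).1) (fun j => hb _) (k2 b) fun l x hx => ?_,
    by rwa [compl_compl]⟩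
  refine (Hp.genp hM.snc hx).mono fun y c => ⟨c.1, or_iff_not_imp_left.2 fun a _ _ r _ _ _ => ?_⟩
  obtain ⟨j, a⟩ := not_forall.1 a
  obtain ⟨l', e, e'⟩ := hc' y _ j.2 (not_not.1 a)
  obtain rfl : l' = l := by_contra fun a => c.2 _ a e'
  simp only [e, Rat.cast_one, sub_self]
  exact Finset.sum_nonneg fun j _ => mul_nonneg (Nat.cast_nonneg _) (sub_nonneg.2 (hb _))

theorem final2_of (h0 : KY) (h1 : CORE) (h2 : MODEL) (h3 : LOGM) (h4 : GEN) (h5 : REM) (h6 : REGO)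
    (h7 : NEATK) (h8 : CSTEP) : Top.Final2 := by
  intro n p X Y _ _ _ _ f Δ h hC
  obtain ⟨d, rfl⟩ := Nat.exists_eq_add_of_le (le_dim h4 h)
  rw [Nat.add_sub_cancel_left]
  obtain ⟨hM, hR⟩ := Cio.cin _ _ X Y f Δ h
  have := hM.conn
  obtain ⟨M₁, u, v, a1, a2, a3, a4⟩ := kmodel h3 h4 _ hM (classC_of h0 h5 _ hC)
  obtain ⟨Δ₁, b1, b2⟩ := Cio.cout _ p M₁ a1 a4
  obtain ⟨N, c1, c2, -⟩ := h7 _ p M₁ ∅ a1 thin_empty
  obtain ⟨Δ₂, d1, d2⟩ := Cio.cout _ p N.toFb N.ok c1.connG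
  have l1 := h2 _ p M₁ _ u v hM a1 a2
  have l2 := h2 _ p N.toFb M₁ _ _ a1 N.ok N.sq
  obtain ⟨H, e1, e2⟩ := vg_of h4 h (P := N.toFb.Tau) le_rfl
    (fun k ⟨_, _, _, _, _, _, c⟩ => c.le) fun a k e1 e2 => l1.kap _ (l2.kap _
      (h1 _ p d _ rfl N.ok (N.kahX a3) a k ((l2.fib d a).1 ((l1.fib d a).1 e1)) e2))
  have e3 := fun k c => le_iSup₂ (f := fun k (_ : N.toFb.Tau k) => (k : WithBot ℕ∞)) k c
  refine ⟨H, e1, fun y hy => ⟨(e2 y hy).1, fun F _ _ i hi => ⟨le_trans (add_le_add_right ?_ _)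
    ((e2 y hy).2 F i hi), fun Γ g1 g2 => le_trans (add_le_add_right (iSup₂_le fun k c =>
      e3 k (l2.tau _ (l1.tau _ (tau_log hM hR g1 g2 c)))) _) ((e2 y hy).2 F i hi)⟩⟩⟩
  exact (iInf₂_le (⟨N.X.X, N.Y.X, _, _, _, _, N.f, Δ₂⟩ : Fib (Cm (p + d)) (Cm p))
    (.trans _ ⟨M₁.X.X, M₁.Y.X, _, _, _, _, M₁.f, Δ₁⟩ _
      (.symm _ _ (.rel _ _ (h8 _ p M₁ _ Δ₁ Δ u v hM a1 hR b1 h.snc b2.snc a2)))
      (.symm _ _ (.rel _ _ (h8 _ p N.toFb M₁ Δ₂ Δ₁ _ _ a1 N.ok b1 d1 b2.snc d2.snc N.sq))))).trans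
    (iSup₂_le fun k c => e3 k (tau_base h5 h6 c1 d1 c2 c))

end Vale.Agent.P281Z.Tp
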