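import Vale.Agent.P281Z.El.Sk
import Vale.Agent.P281Z.Ri.Resc
import Vale.Agent.P281Z.Top4
import Vale.Agent.P281Z.Nt.Conv
import Vale.Agent.P281Z.An.Basic

/-!
# P281Z, block TOP: meromorphic images of compact Kähler spaces
-/

open scoped Manifold ContDiff Topology
open Set Filter
open Vale.Agent.P272.K
open Vale.Agent.P277 (CSp IsReg HolAt)
open Vale.Agent.P277Z (Hol at_chart)
open Vale.Agent.P277Z.GH (exists_fam)
open Vale.Agent.P277Z.GH.Ka (sm_comp sp_sm cHess_zero_of_freq mem_Ω)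
open Vale.Agent.P281Z.Ri

noncomputable section

namespace Vale.Agent.P281Z.Tp

theorem fin0 {X : CSp} (hX : Dense {z | IsReg 0 X z}) : Finite X.pt := by
  have key : ∀ x, ∃ T : Set X.pt, T.Finite ∧ ∀ᶠ y in 𝓝 x, IsReg 0 X y → y ∈ T := fun x => by
    obtain ⟨N, k, V, Ω, h, φ, m1, m2⟩ := X.model x
    obtain ⟨T, t1, t2⟩ := P277Z.Lo.cc (Cm N) (Fin k) (φ x) h (fun _ => 1)
      (fun i => m2.holo i _ (mem_Ω m2 m1)) analyticAt_const Ω (m2.isOpen'.mem_nhds (mem_Ω m2 m1))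
    refine ⟨V ∩ φ ⁻¹' T, .of_finite_image (t1.subset (image_subset_iff.2 inter_subset_right))
      (m2.injOn.mono inter_subset_left), ?_⟩
    filter_upwards [(m2.continuousAt m1).eventually t2, m2.isOpen.mem_nhds m1] with y a b
    rintro ⟨V', Ω', h', φ', k1, k2⟩
    have e : V' = {y} := eq_singleton_iff_unique_mem.2
      ⟨k1, fun y hy => k2.injOn hy k1 (Subsingleton.elim _ _)⟩
    obtain ⟨O, o1, o2⟩ := m2.emb.isInducing.isOpen_iff.1
      ((e ▸ k2.isOpen).preimage (continuous_subtype_val (p := (· ∈ V))))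
    refine (a {φ y} (fun z hz _ _ => ?_) (m2.image.le ⟨y, b, rfl⟩).2 one_ne_zero rfl).elim
      fun p c => ⟨b, show φ y ∈ T from mem_singleton_iff.1 c.2.2.2.2 ▸ c.1⟩
    by_cases c : z = φ y
    · subst c
      filter_upwards [o1.mem_nhds ((Set.ext_iff.1 o2 ⟨y, b⟩).2 rfl), m2.isOpen'.mem_nhds hz] with w w1 w2 w3 _
      obtain ⟨y', c, rfl⟩ := m2.image.ge ⟨w2, w3⟩
      exact iff_of_true (congrArg φ ((Set.ext_iff.1 o2 ⟨y', c⟩).1 w1)) rfl
    · exact (eventually_ne_nhds c).mono fun w d _ _ => iff_of_false d c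
  choose T h1 h2 using key
  obtain ⟨S, -, hS⟩ := isCompact_univ.elim_nhds_subcover _ fun x _ => h2 x
  have a : {z | IsReg 0 X z}.Finite := (S.finite_toSet.biUnion fun x _ => h1 x).subset fun y hy => by
    obtain ⟨x, hx, k⟩ := mem_iUnion₂.1 (hS (mem_univ y))
    exact mem_biUnion hx (k hy)
  exact finite_univ_iff.1 (hX.closure_eq ▸ a.isClosed.closure_eq.symm ▸ a)

theorem zero {X : CSp} (hX : Dense {z | IsReg 0 X z}) :
    ∃ (W : Mf 0) (π : W.X → X.pt) (B : Set X.pt), Rc X W π B := by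
  have := fin0 hX
  have : DiscreteTopology (Rs.Zr.mf X.pt).X := ⟨rfl⟩
  refine ⟨Rs.Zr.mf X.pt, fun x => x, ∅, continuous_of_discreteTopology, fun y a _ e _ =>
    (analyticAt_const (v := a (e.symm (e y)))).congr (.of_forall fun z => by
      rw [Subsingleton.elim z (e y)]), fun x _ => ⟨1, fun _ _ => 1, fun _ => P277.hol_const _ _,
      .of_forall fun _ => by simp⟩, by simp, fun _ => subset_closure id, fun z _ => ⟨z, rfl, fun _ k => k⟩,
    fun y _ => ⟨fun x => x, continuous_of_discreteTopology.continuousAt, rfl,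
      .of_forall fun _ => rfl, fun a _ => P277.hol_congr (P277.hol_const (a y) _) ?_⟩,
    fun _ _ _ _ _ _ _ _ => Rs.Zr.kah _⟩
  rw [nhds_discrete]
  exact eventually_pure.2 rfl

/-- the resolution of a compact Kähler space is Kähler -/
theorem res_kah (h : P277Z.Hir.StMain) {w : ℕ} {X : CSp} (hK : Top.KahSp w X) :
    ∃ (W : Mf w) (π : W.X → X.pt) (B : Set X.pt), Rc X W π B ∧ W.Kah := by
  obtain ⟨hX, ι, U, u, h1, h2, h3, h4⟩ := hK
  rcases w.eq_zero_or_pos with rfl | hw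
  · obtain ⟨W, π, B, k⟩ := zero hX
    exact ⟨W, π, B, k, Rs.Zr.kah W⟩
  obtain ⟨I, hI, -⟩ := exists_fam (P277Z.Glc.sing_an hX)
  have hd : Dense I.Zᶜ := hX.mono fun x a b => (hI ▸ b :) a
  obtain ⟨o⟩ := h I.base w univ hw ⟨X.model, fun x hx => not_not.1 fun a => hx (hI.ge a), hd⟩
    isCompact_univ
  have hol : ∀ y a, X.Hol a (o.π y) → Hol w (fun z => a (o.π z)) y := fun y a ha =>
    .of_chart (at_chart y) (o.hol y a ha)
  have hc : ∀ {e : Chart w o.Y} {y}, At e y → HolAt X (fun z => o.π (e.symm z)) (e y) :=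
    fun he => ⟨o.cont.continuousAt.comp (OpenPartialHomeomorph.continuousAt_symm _ he.mem_target),
      fun a ha => hol _ a (by simpa only [he.left_inv] using ha) _ he⟩
  refine ⟨{ X := o.Y, cpt := ⟨o.proper univ o.sub isCompact_univ⟩ }, o.π, I.Z, ⟨o.cont, hol, I.an, hd,
    o.dense, fun z hz => ?_, fun y hy => ?_, Resc.kah_of o.cont hol (Resc.pos o)⟩,
    Resc.core (G := o.G) (c := fun l => o.c l) (v := o.v) (U := fun i => o.π ⁻¹' U i)
      (ψ := fun i y => u i (o.π y)) (fun i => (h1 i).preimage o.cont) (fun y => h2 _)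
      (fun i j y hi hj e he => ?_) fun y => ?_⟩
  · obtain ⟨y, rfl⟩ := o.surj z (o.sub trivial) hz
    exact ⟨y, rfl, fun y' => o.one y y' hz⟩
  · obtain ⟨σ, a1, a2, a3, a4⟩ := o.sec y hy
    refine ⟨σ, a1, a2, a3, fun a ha => P277.hol_congr (P277.hol_comp a4
      (G := fun z => a ((chartAt (Cm w) y).symm z)) (by rw [a2]; exact ha _ (at_chart y))) ?_⟩
    filter_upwards [a1.eventually (p := (· ∈ (chartAt (Cm w) y).source))
      (by rw [a2]; exact chart_source_mem_nhds (Cm w) y)] with z hz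
    exact congrArg a ((chartAt (Cm w) y).left_inv hz).symm
  · have a := fun k (c : o.π y ∈ U k) =>
      (sm_comp (hc he) (sp_sm (he.left_inv.symm ▸ h3 k _ c))).self_of_nhds
    have b := (a i hi).sub (a j hj)
    refine ⟨b, cHess_zero_of_freq (b.of_le P284Y.Lib.two_le_inf) ?_⟩
    have c : ∃ᶠ x in 𝓝 y, cHess (fun z => u i (o.π (e.symm z)) - u j (o.π (e.symm z))) (e x) = 0 :=
      ((mem_closure_iff_frequently.1 (o.dense y)).and_eventually ((at_near he).and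
        (o.cont.continuousAt.eventually (((h1 i).inter (h1 j)).mem_nhds ⟨hi, hj⟩)))).mono
        fun x ⟨c1, c2, c3⟩ => h4 i j _ _ (hc c2)
          (c2.left_inv.symm ▸ not_not.1 fun a => c1 (hI.ge a)) (c2.left_inv.symm ▸ c3.1)
          (c2.left_inv.symm ▸ c3.2)
    exact (e.continuousAt he.2).tendsto.frequently c
  · obtain ⟨ζ, m, g, s, a1, a2, a3, a4⟩ := Resc.pos o y
    refine ⟨ζ, fun x => s x - ∑ j, ‖g j (o.π x)‖ ^ 2, a1, fun i hi =>
      Resc.loc (V := { X := o.Y, cpt := ⟨o.proper univ o.sub isCompact_univ⟩ }) o.cont (hol y) a3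
        (h3 i _ hi) a2, a4.mono fun z a b => ?_⟩
    simp only [a b]
    ring

theorem fujiki_of (h : P277Z.Hir.StMain) (hE : El.ELIM) {n : ℕ} (X : Mf n) (hX : Top.InC n X.X) :
    Top.Fujiki n X.X := by
  obtain ⟨m, S, Z, τ, h1, h2, h3, h4, h5, h6⟩ := hX
  obtain ⟨V, π, B, k, hV⟩ := res_kah h h1
  have a1 : An m (π ⁻¹' Z) := fun y =>
    let ⟨r, g, a, b⟩ := h2 (π y) trivial
    ⟨r, fun i z => g i (π z), fun i => k.hol y _ (a i), k.cont.continuousAt.eventually b⟩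
  have a2 : Dense (π ⁻¹' Z)ᶜ := dense_closure.1 (k.dense'.mono fun y hy => by
    obtain ⟨σ, b1, b2, b3, -⟩ := k.sec y hy
    exact mem_closure_iff_frequently.2 ((b2 ▸ b1.tendsto).frequently
      (((mem_closure_iff_frequently.1 (h3 (π y))).and_eventually b3).mono fun z c d =>
        c.1 (c.2 ▸ d))))
  have a3 : An (X := (V.prod X).X) (m + n) ((fun z => (π (V.p1 X z), V.p2 X z)) ⁻¹'
      closure {q : S.pt × X.X | q.1 ∉ Z ∧ q.2 = τ q.1}) := fun z => by
    obtain ⟨_, _, r, a, b, F, c1, c2, c3, c4⟩ := h6 (π (V.p1 X z)) (V.p2 X z)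
    exact ⟨r, fun j y => F j (fun i => a i (π (V.p1 X y)), fun i => b i (V.p2 X y)),
      fun j => ((AnV.pi fun i => hol_p1.hol (k.hol _ _ (c1 i))).prod
        (AnV.pi fun i => hol_p2.hol (Nt.hol_iff.2 (c2 i)))).cmp (c3 j),
      ((k.cont.comp cont_p1).prodMk cont_p2).continuousAt.eventually c4⟩
  have a4 : ((fun z => (π (V.p1 X z), V.p2 X z)) ⁻¹'
      closure {q : S.pt × X.X | q.1 ∉ Z ∧ q.2 = τ q.1}) \ V.p1 X ⁻¹' (π ⁻¹' Z) =
      {z | V.p1 X z ∉ π ⁻¹' Z ∧ V.p2 X z = τ (π (V.p1 X z))} := by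
    ext z
    refine ⟨fun c => ⟨c.2, ?_⟩, fun c => ⟨subset_closure c, c.1⟩⟩
    have t : Tendsto (fun q : S.pt × X.X => τ q.1) (𝓝 (π (V.p1 X z), V.p2 X z))
        (𝓝 (τ (π (V.p1 X z)))) :=
      (h4 _ c.2).1.tendsto.comp (continuous_fst.tendsto (π (V.p1 X z), V.p2 X z))
    exact tendsto_nhds_unique_of_frequently_eq
      (continuous_snd.tendsto (π (V.p1 X z), V.p2 X z)) t
      ((mem_closure_iff_frequently.1 c.1).mono fun _ d => d.2)
  obtain ⟨X₁, ϖ, g, k1, k2, k3, k4⟩ := hE m n V X (π ⁻¹' Z) (fun y => τ (π y)) ⟨⟨a1, a2⟩,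
    fun y hy => .of_hol ((h4 _ hy).1.comp k.cont.continuousAt) (at_chart _) fun a =>
      k.hol y _ ((h4 _ hy).2 _ (Nt.hol_iff.1 (hol_chart (at_chart _) a))),
    by rw [El.gr, ← a4]; exact a3.clo (a1.pre hol_p1)⟩ hV
  refine ⟨m, X₁.X, _, _, g, X₁.t2, X₁.cpt, X₁.mf, k1, k3, fun x => ?_⟩
  have b := (isCompact_range k3.cont).isClosed
  refine closure_minimal ?_ b (h5 x)
  rintro _ ⟨s, a, rfl⟩
  have c : Zᶜ ∈ 𝓝 s := by
    obtain ⟨r, g, c1, c2⟩ := h2 s trivial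
    obtain ⟨i, c3⟩ := not_forall.1 (mt c2.self_of_nhds.2 a)
    filter_upwards [c2, (P277.hol_continuousAt (c1 i)).eventually_ne c3] with z d e f using e (d.1 f i)
  refine b.mem_of_frequently_of_tendsto (((mem_closure_iff_frequently.1 (k.dense s)).and_eventually
    c).mono fun z d => ?_) (h4 s a).1
  obtain ⟨y, rfl, -⟩ := k.one z d.1
  obtain ⟨x, rfl⟩ := k2.ex d.2
  exact ⟨x, k4 x d.2⟩

end Vale.Agent.P281Z.Tp
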