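import Vale.Agent.P281Z.Md.Pull
import Vale.Agent.P281Z.Mf.Adj
import Vale.Agent.P281Z.Nt.Ne
import Vale.Agent.P281Z.Sc.Riem

/-!
# P281Z, block TOP: the pull back of the pluricanonical forms of the orbifold base
-/

open scoped Manifold ContDiff Topology
open Set Filter Function
open Vale.Agent.P272.K Vale.Agent.P285.H281.FD
open Vale.Agent.P277Z (Hol at_chart gen gen_of_nhds nz_of_gen)
open Vale.Agent.P277Z.Slc (Ind LEq Snc dd isLB_can)
open Vale.Agent.P281Z.Md (Ca mn dv wt ca_of)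

set_option linter.unusedSectionVars false

noncomputable section

namespace Vale.Agent.P281Z.Tp

theorem det_bd {p : ℕ} {M : Matrix (Fin p) (Fin p) ℂ} {B : Fin p → Fin p → ℝ} {c : Fin p → ℝ}
    (h : ∀ a b, ‖M a b‖ ≤ B a b * c a) :
    ‖M.det‖ ≤ (∑ σ : Equiv.Perm (Fin p), ∏ b, B (σ b) b) * ∏ a, c a := by
  rw [Matrix.det_apply', Finset.sum_mul]
  refine norm_sum_le_of_le _ fun σ _ => ?_
  rw [norm_mul, show ‖((Equiv.Perm.sign σ : ℤ) : ℂ)‖ = 1 by
    rcases Int.units_eq_one_or (Equiv.Perm.sign σ) with e | e <;> simp [e], one_mul, norm_prod,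
    ← Equiv.prod_comp σ c, ← Finset.prod_mul_distrib]
  exact Finset.prod_le_prod (fun _ _ => norm_nonneg _) fun b _ => h _ _

variable {n p m : ℕ} {X Y : Type} [TopologicalSpace X] [ChartedSpace (Cm n) X]
  [TopologicalSpace Y] [ChartedSpace (Cm p) Y] [IsManifold 𝓘(ℂ, Cm n) ω X]
  [IsManifold 𝓘(ℂ, Cm p) ω Y] {f : X → Y} {x z : X}

theorem logb {A : X → Cm p} {Ξ : Chart n X} {i₀ : Fin n} (h : Ca Ξ z) (hA : AnV n A z)
    (h0 : Ξ z i₀ = 0) {α : Type} [Fintype α] {j : α → Fin p} (hj : Injective j)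
    (hJ : ∀ a, ∃ (r : ℕ) (g : X → ℂ), Hol n g z ∧ g z ≠ 0 ∧
      ∀ᶠ y in 𝓝 z, A y (j a) = g y * Ξ y i₀ ^ r) (K : Fin p → Fin n) :
    ∃ C : ℝ, ∀ᶠ y in 𝓝 z, ‖Ξ y i₀ * mn A Ξ K y‖ ≤ C * ∏ a, ‖A y (j a)‖ := by
  classical
  have h1 : ∀ i k, ∃ B : ℝ, ∀ᶠ y in 𝓝 z, y ∈ univ → ‖wt Ξ {i₀} k y * dv A Ξ y (Pi.single k 1) i‖ ≤
      B * if i ∈ range j then ‖A y i‖ else 1 := fun i k => by
    split_ifs with c
    · obtain ⟨a, rfl⟩ := c
      obtain ⟨r, g, a1, a2, a3⟩ := hJ a
      exact Md.logd h hA a1 a2 a3 k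
    · simp only [mul_one]
      exact Md.bnd_cont ((Md.wt_hol h {i₀} k).cont.mul ((continuous_apply i).continuousAt.comp
        ((Md.dv_cont h hA).clm_apply continuousAt_const))).norm
  choose B hB using h1
  refine ⟨∑ σ : Equiv.Perm (Fin p), ∏ b, B (σ b) (K b), ?_⟩
  filter_upwards [eventually_all.2 fun i => eventually_all.2 (hB i),
    (h.anV.hol i₀).cont.norm.eventually_lt continuousAt_const (show ‖Ξ z i₀‖ < 1 by simp [h0])]
    with y a1 a2
  refine (Md.wt_le a2.le K).trans (((congrArg norm (Matrix.det_mul_row _ _).symm).trans_le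
    (det_bd fun a b => a1 a (K b) trivial)).trans_eq (congrArg _ ?_))
  rw [← Finset.prod_filter]
  exact (Finset.prod_bij (fun a _ => j a) (by simp) (fun _ _ _ _ c => hj c)
    (fun i c => by simpa using c) fun _ _ => rfl).symm

variable {κ κ' : Type} [Fintype κ] [Fintype κ'] {G : κ → Set X} {E : κ' → Set Y} {δ : κ → ℝ}
  {β : κ' → ℝ} {l : κ}

variable (n p f G E δ β) in
/-- the inequality of the orbifold morphisms at a general point of `G l` -/
def Num (l : κ) (z : X) : Prop :=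
  ∀ (ζ : X → ℂ) (η : κ' → Y → ℂ) (r : κ' → ℕ), LEq n (G l) z ζ → (∀ j, LEq p (E j) (f z) (η j)) →
    (∀ j, ∃ g, Hol n g z ∧ g z ≠ 0 ∧ ∀ᶠ y in 𝓝 z, η j (f y) = g y * ζ y ^ r j) →
    1 - δ l ≤ ∑ j, r j * (1 - β j)

theorem bd_pt (hf : HolM n p f) (hG : Snc n G) (hE : Snc p E) (hp : ∀ x ∈ off G, f x ∈ off E)
    {τ : Y → ℂ} (hτ : BdP p id E (fun j => m * β j) τ (f z)) (hz : z ∈ G l)
    (hz' : ∀ l', l' ≠ l → z ∉ G l') {e : Chart n X} {e' : Chart p Y} (he : At e z)
    (he' : At e' (f z)) (hn : Num n p f G E δ β l z) (I : Fin p → Fin n) :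
    BdP n id G (fun l => m * δ l) (fun y => τ (f y) * minor f e e' I y ^ m) z := by
  classical
  obtain ⟨ζ, hζ, -⟩ := hG z
  obtain ⟨η, hη, hi⟩ := hE (f z)
  obtain ⟨Θ, j, a1, a2, a3⟩ := Md.exists_ca hi
  obtain ⟨Ξ, i, b1, -, b2⟩ := Md.exists_ca (Nt.Hp.ind_one (hζ l) hz)
  have hc := hf.cont.continuousAt (x := z)
  have b3 : ∀ᶠ y in 𝓝 z, Ξ y (i ()) = ζ l y := b1.near.mono fun y k => b2 y k.2 ()
  have b4 : ∀ᶠ y in 𝓝 z, ∀ l', l' ≠ l → y ∉ G l' := eventually_all.2 fun l' =>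
    eventually_imp_distrib_left.2 fun c => (hζ l').not_mem_near (hz' l' c)
  choose r g g1 g2 g3 using fun j => Md.unit_pow (hζ l) hz (hf.hol (hη j).hol) (by
    filter_upwards [b4, (hζ l).1, hc.eventually (hη j).1] with y c1 c2 c3 c4
    exact c2.2 (by_contra fun c => hp y (fun l' => (eq_or_ne l' l).elim (fun e => e ▸ c) (c1 l'))
      j (c3.1 c4)))
  have h0 := (hζ l).mem.2 hz
  have one : ∀ {u : X → ℂ} {θ : ℝ}, (∃ C : ℝ, ∀ᶠ y in 𝓝 z, y ∈ off G → ‖u y‖ * ‖ζ l y‖ ^ θ ≤ C) →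
      BdP n id G (fun l' => if l' = l then θ else 0) u z := fun ⟨C, k⟩ =>
    bdP_of_one continuousAt_id hζ (C := C) (by simpa only [wt_single, id] using k)
  have hA : AnV n (fun y => Θ (f y)) z := Md.anV_comp (hf.at z) a1.anV
  have h1 : ∀ K, BdP n id G (fun l' => if l' = l then 1 - ∑ j, (r j : ℝ) else 0)
      (mn (fun y => Θ (f y)) Ξ K) z := fun K => by
    obtain ⟨C, hC⟩ := logb b1 hA (b3.self_of_nhds.trans h0) a2 (fun a => ⟨r a, g a, g1 a, g2 a, by
      filter_upwards [g3 a, b3, hc.eventually a1.near] with y c1 c2 c3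
      rw [a3 _ c3.2, c1, c2]⟩) K
    obtain ⟨C', -, hC'⟩ := bdd_near (f := fun y => C * ∏ a : {j // f z ∈ E j}, ‖g a y‖)
      (continuousAt_const.mul (tendsto_finsetProd _ fun a _ => (g1 a.1).cont.norm))
    refine one ⟨C', ?_⟩
    filter_upwards [hC, hC', eventually_all.2 g3, b3, hc.eventually a1.near, Md.ne_off hζ]
      with y c1 c2 c3 c4 c5 c6 c7
    have c8 := norm_pos_iff.2 (c6 c7 l)
    simp only [a3 _ c5.2, c3, c4, norm_mul, norm_pow, Finset.prod_mul_distrib,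
      Finset.prod_pow_eq_pow_sum] at c1
    rw [← Finset.sum_subtype (Finset.univ.filter fun j => f z ∈ E j) (by simp),
      Finset.sum_filter_of_ne fun j _ c => (hη j).mem.1 (by
        rw [(g3 j).self_of_nhds, h0, zero_pow c, mul_zero]), ← mul_assoc] at c1
    rw [← Nat.cast_sum, Real.rpow_sub c8, Real.rpow_one, Real.rpow_natCast, ← mul_div_assoc,
      div_le_iff₀ (pow_pos c8 _), mul_comm]
    exact c1.trans (mul_le_mul_of_nonneg_right c2 (pow_pos c8 _).le)
  have hF := (hf.at z).anV he'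
  have h2 : BdP n id G (fun l' => if l' = l then 1 - ∑ j, (r j : ℝ) else 0) (minor f e e' I) z := by
    refine (bdP_sum Finset.univ fun K _ => ((h1 K).cmul
      ((Md.hol_mn a1 (anV_chart he') id).cont.comp hc)).cmul
      (a := fun y => ∏ b, dv Ξ e y (Pi.single (I b) 1) (K b)) (tendsto_finsetProd _ fun b _ =>
        (continuous_apply _).continuousAt.comp ((Md.dv_cont (ca_of he) b1.anV).clm_apply
          continuousAt_const))).congr ?_
    filter_upwards [at_near he, b1.near, hc.eventually a1.near, hc.eventually (at_near he')]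
      with y c1 c2 c3 c4 _
    refine (Md.mn_comp (u := fun y => y) (ca_of c1) c2 (holM_id.at y) ((hf.at y).anV c4) I).trans
      (Finset.sum_congr rfl fun K _ => congrArg _ ?_)
    exact Md.mn_left c2 c3 (hf.at y) (anV_chart c4) K
  have h3 : BdP n id G (fun l' => if l' = l then ∑ j, r j * (m * β j) else 0)
      (fun y => τ (f y)) z := by
    obtain ⟨C, hC⟩ := bd_unit (a := fun j y => η j (f y)) (b := fun j y => ζ l y ^ r j)
      (u := fun j y => (g j y)⁻¹) (P := fun y => y ∈ off G) (fun j => (g1 j).cont.inv₀ (g2 j)) (fun j => inv_ne_zero (g2 j))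
      (fun j => ((g3 j).and ((g1 j).ne_near (g2 j))).mono fun y c => by
        rw [c.1, inv_mul_cancel_left₀ c.2]) (fun y => norm_nonneg (τ (f y)))
      ((hτ η hη).imp fun C k => (hc.eventually k).mono fun y c c' => c (hp y c'))
    refine one ⟨C, ?_⟩
    filter_upwards [hC, Md.ne_off hζ] with y c1 c2 c3
    rw [Real.rpow_sum_of_pos (norm_pos_iff.2 (c2 c3 l))]
    simpa only [norm_pow, Real.rpow_natCast_mul (norm_nonneg _)] using c1 c3
  refine (h3.mul continuousAt_id (h2.pow continuousAt_id m)).mono continuousAt_id fun l' c => ?_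
  obtain rfl : l' = l := by_contra fun k => hz' l' k c
  have := mul_le_mul_of_nonneg_left (hn _ η r (hζ _) hη fun j => ⟨_, g1 j, g2 j, g3 j⟩)
    (Nat.cast_nonneg (α := ℝ) m)
  simp only [mul_sub, mul_one, Finset.sum_sub_distrib, Finset.mul_sum, if_true,
    mul_left_comm (m : ℝ)] at this ⊢
  linarith

theorem tb_base (hf : HolM n p f) (hG : Snc n G) (hE : Snc p E) (hp : ∀ x ∈ off G, f x ∈ off E)
    (hδ : ∀ l, 0 ≤ δ l) (hβ : ∀ j, β j ≤ 1) {τ : Chart p Y → Y → ℂ}
    (hτ : SecP p p id univ ((Bd.can p Y).pow m) E (fun j => m * β j) τ)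
    (H : ∀ l, ∀ x ∈ G l, ∃ᶠ z in 𝓝 x, z ∈ G l ∧ (f z ∈ off E ∨ Num n p f G E δ β l z)) :
    TB n p f G (fun l => m * δ l) m (off E)ᶜ τ := by
  refine ⟨fun e y he hy => hτ.hol e y trivial he (not_not.1 hy), fun e y he => ?_,
    fun e e' y he he' hy => hτ.chg e e' y trivial he he' (not_not.1 hy),
    fun x e e' he he' ζ hζ I => ?_⟩
  · obtain ⟨η, hη, -⟩ := hE y
    obtain ⟨b, h1, h2⟩ := (hτ.bdP trivial he).ext hE (k := fun _ => m) (fun j _ => by
      have := mul_le_of_le_one_right (Nat.cast_nonneg (α := ℝ) m) (hβ j)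
      push_cast
      linarith) (hτ.ev (lb_pow isLB_can m) isOpen_univ trivial he) hη
    simp only [zpow_natCast] at h2
    have h3 := ((snc_thin_off hE).gen y).mono fun _ => not_not.1
    exact ⟨b, _, h1, Hol.prod _ fun j _ => (hη j).hol.pow m, nz_of_gen
      ((h3.and (gen_of_nhds (Md.ne_off hη))).mono fun w c => Finset.prod_ne_zero_iff.2 fun j _ =>
        pow_ne_zero _ (c.2 c.1 j)), (h3.and (gen_of_nhds h2)).mono fun w c => (c.2 c.1).symm⟩
  have hc := hf.cont.continuousAt (x := x)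
  have h0 : ∀ {y}, At e y → At e' (f y) → f y ∈ off E →
      Hol n (fun y => τ e' (f y) * minor f e e' I y ^ m) y := fun a b c =>
    (hf.hol (hτ.hol e' _ trivial b c)).mul ((hol_minor (hf.at _) a b I).pow m)
  have h1 := (at_near he).and (hc.eventually (at_near he'))
  obtain ⟨C, hC⟩ := (bdP_codim1 hG (c := fun l => m * δ l)
    (u := fun y => τ e' (f y) * minor f e e' I y ^ m) (fun l _ => Int.lt_floor_add_one _)
    (h1.mono fun y a b => h0 a.1 a.2 (hp y b)) (h1.eventually_nhds.mono fun y a l b c => by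
      refine ((H l y b).and_eventually (a.and (eventually_all.2 fun l' =>
        eventually_imp_distrib_left.2 fun k : l' ≠ l =>
          ((Hyp.of_snc hG).closed l').isOpen_compl.eventually_mem (c l' k)))).mono ?_
      rintro z ⟨⟨a1, a2 | a2⟩, ⟨a3, a4⟩, a5⟩
      · exact ⟨a1, bdP_of_cont continuousAt_id
          (fun l _ => mul_nonneg m.cast_nonneg (hδ l)) (h0 a3 a4 a2).cont⟩
      · exact ⟨a1, bd_pt hf hG hE hp (hτ.bdP trivial a4) a1 a5 a3 a4 a2 I⟩)).mono
    continuousAt_id (fun l _ => Int.floor_le _) ζ hζ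
  exact ⟨C, hC.mono fun y a _ b => by simpa only [norm_mul, norm_pow, id] using a b⟩

/-- the image of a hypersurface on which the rank is maximal -/
theorem img_open (hf : HolA n p f x) {D : Set X} {H : Set Y} (hx : x ∈ D) (h : Nt.NE n p f D x)
    {η : Y → ℂ} (hη : LEq p H (f x) η) (hD : ∀ y ∈ D, f y ∈ H) :
    ∀ᶠ w in 𝓝 (f x), w ∈ H → w ∈ f '' D := by
  obtain ⟨ζ, φ, h1, h2, h3⟩ := h.ind hf hx
  have he := at_chart (n := n) x
  have he' := at_chart (n := p) (f x)
  obtain ⟨c, c1, c2⟩ := Nt.Hp.div h1 (hf.hol hη.hol)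
    ((hf.cont.eventually hη.1).mono fun y a b => a.2 (hD y b))
  have h4 : Ind p (Sum.elim (fun _ : Unit => η) φ) (f x) := by
    refine .of_chart (Sum.rec (fun _ => hη.hol) h2) he' (Fintype.linearIndependent_iff.2
      fun t ht => ?_)
    have k := Fintype.linearIndependent_iff.1 (h3.2 _ he)
      (Sum.elim (fun _ => t (.inl ()) * c x) fun i => t (.inr i)) (by
        ext1 v
        have k1 := DFunLike.congr_fun ht (df f (chartAt (Cm n) x) (chartAt (Cm p) (f x)) x v)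
        have k2 := DFunLike.congr_fun ((dd_comp hη.hol hf he he').symm.trans
          ((P277Z.Slc.dd_congr c2 he).trans (P277Z.Slc.dd_mul c1 h1.hol (h1.mem.2 hx) he))) v
        simp only [ContinuousLinearMap.comp_apply] at k2
        simpa [k2, mul_assoc, fun i => dd_comp (h2 i) hf he he'] using k1)
    have k' : ∀ i, t (.inr i) = 0 := fun i => k (.inr i)
    rintro (_ | i)
    · by_contra k1
      refine (hη.2 _ he').2 (hη.mem.2 (hD x hx)) (ContinuousLinearMap.ext fun v => ?_)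
      show dd η _ (f x) v = 0
      simpa [k', show t (.inl ()) ≠ 0 from k1] using DFunLike.congr_fun ht v
    · exact k' i
  obtain ⟨Θ', a1, a2, a3, a4⟩ := exists_co h4 (d := 0)
    (by have := ind_le h4; simp at this ⊢; omega) hη.1
  obtain ⟨Θ, b1, b2, b3, b4⟩ := exists_co h3 (Nat.add_sub_cancel' (ind_le h3))
    (h1.1.and (hf.cont.eventually (Θ'.open_source.mem_nhds a2)))
  have h5 : ContinuousAt (fun w => ((Sum.elim (fun _ : Unit => 0) fun i => φ i w, (Θ x).2) :
      (Unit ⊕ Fin (p - 1) → ℂ) × _)) (f x) := (continuousAt_pi.2 (Sum.rec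
        (fun _ => continuousAt_const) fun i => (h2 i).cont)).prodMk continuousAt_const
  have h6 : ((Sum.elim (fun _ : Unit => 0) fun i => φ i (f x), (Θ x).2) :
      (Unit ⊕ Fin (p - 1) → ℂ) × _) = Θ x := Prod.ext ((funext (Sum.rec
        (fun _ => (h1.mem.2 hx).symm) fun _ => rfl)).trans (b4 x b2).symm) rfl
  filter_upwards [h5.eventually (h6 ▸ Θ.open_target.mem_nhds (Θ.map_source b2)),
    Θ'.open_source.mem_nhds a2] with w k1 k2 k3
  have k4 := Θ.map_target k1
  have k5 := (b4 _ k4).symm.trans (congrArg Prod.fst (Θ.right_inv k1))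
  have k6 := (b3 k4).1.1 (congrFun k5 (.inl ()))
  refine ⟨_, k6, Θ'.injOn (b3 k4).2 k2 (Prod.ext ?_ (Subsingleton.elim _ _))⟩
  rw [a4 _ (b3 k4).2, a4 _ k2]
  exact funext (Sum.rec (fun _ => ((a3 (b3 k4).2).2 (hD _ k6)).trans ((a3 k2).2 k3).symm)
    fun i => congrFun k5 (.inr i))

end Vale.Agent.P281Z.Tp
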