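import Vale.Agent.P281Z.Tp.Sec
import Vale.Agent.P281Z.Tp.Log
import Vale.Agent.P281Z.Nt.Mild

/-!
# P281Z, block TOP: the orbifold base of a neat model
-/

open scoped Manifold ContDiff Topology
open Set Filter Function
open Vale.Agent.P272.K Vale.Agent.P285.H281.FD Vale.Agent.P281
open Vale.Agent.P281.H713.TZ.S (base)
open Vale.Agent.P281.H399.Gen (mulSet base_of base_not isPrime_of)
open Vale.Agent.P277Z.Slc (LEq Snc)
open Vale.Agent.P281Z.Nt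

noncomputable section

namespace Vale.Agent.P281Z.Tp

variable {n p : ℕ}

theorem base_bd {X Y : Type} [TopologicalSpace X] [ChartedSpace (Cm n) X] [TopologicalSpace Y]
    [ChartedSpace (Cm p) Y] (f : X → Y) (Δ : Set X → ℝ) (D : Set Y) :
    0 ≤ base (Cm n) (Cm p) f Δ D ∧ base (Cm n) (Cm p) f Δ D ≤ 1 := by
  by_cases h : J.IsPrime (Cm p) D
  · rw [base_of h]
    exact ⟨H964.coef_nonneg _, H964.coef_le_one _⟩
  · rw [base_not h]
    exact ⟨le_rfl, zero_le_one⟩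

variable {M₀ : Fb n p} {N : Md M₀} {Δ : Set N.X.X → ℝ}

theorem num (hR : REM) (hG : N.Good) (hΔ : Rep N.toFb Δ) (hB : ∀ l, ¬ N.Bad l)
    (hΓ : J.IsSNC (Cm p) (base (Cm n) (Cm p) N.f Δ))
    [Fintype {D | base (Cm n) (Cm p) N.f Δ D ≠ 0}]
    (hc : ∀ D, base (Cm n) (Cm p) N.f Δ D ≠ 0 → IsConnected D) (l : N.κ) (x : N.X.X)
    (hx : x ∈ N.G l) : ∃ᶠ z in 𝓝 x, z ∈ N.G l ∧
      (N.f z ∈ off (fun j : {D | base (Cm n) (Cm p) N.f Δ D ≠ 0} => j.1) ∨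
        Num n p N.f N.G (fun j : {D | base (Cm n) (Cm p) N.f Δ D ≠ 0} => j.1) (fun l => N.δ l)
          (fun j => base (Cm n) (Cm p) N.f Δ j) l z) := by
  have hf := N.ok.fibn.hol
  have hD := Ml.hy_of_snc N.ok.snc l
  have h0 : ∀ (r : {D | base (Cm n) (Cm p) N.f Δ D ≠ 0} → ℕ) j,
      0 ≤ (r j : ℝ) * (1 - base (Cm n) (Cm p) N.f Δ j) := fun r j =>
    mul_nonneg (Nat.cast_nonneg _) (sub_nonneg.2 (base_bd _ _ _).2)
  have pt := fun {P : N.X.X → Prop} (k : P x) =>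
    (frequently_pure.2 k).filter_mono (pure_le_nhds x)
  by_cases hi : ∃ x ∈ N.G l, Imm n n N.u x
  swap
  · obtain ⟨y, hy, hy'⟩ := (Hp.genp N.ok.snc hx).exists
    obtain ⟨k, h1, h2⟩ := N.sq.log.exc y fun h => hi ⟨y, hy, h⟩
    obtain rfl : k = l := by_contra fun c => hy' k c h2
    exact pt ⟨hx, .inr fun _ _ r _ _ _ => by
      simpa only [h1, Rat.cast_one, sub_self] using Finset.sum_nonneg fun j _ => h0 r j⟩
  obtain ⟨y, hy, hne⟩ : ∃ x ∈ N.G l, NE n p N.f (N.G l) x :=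
    by_contra fun k => hB l ⟨hi, fun x hx h => k ⟨x, hx, h⟩⟩
  by_cases hS : ∃ j : {D | base (Cm n) (Cm p) N.f Δ D ≠ 0}, ∀ y ∈ N.G l, N.f y ∈ j.1
  · obtain ⟨j, hj⟩ := hS
    have hA := hR n p N.X N.Y N.f _ hf (an_of_leq hD)
    obtain ⟨η, hη⟩ := snc_hy hΓ j.2 (N.f y)
    have h1 : closure (N.f '' N.G l) = j := by
      rw [hA.closed.closure_eq]
      exact Subset.antisymm (image_subset_iff.2 hj) (Hp.idh (hc _ j.2).2 (snc_hy hΓ j.2) hA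
        (hj y hy) (img_open (hf.at y) hy hne hη hj))
    refine pt ⟨hx, .inr fun ζ η r a1 a2 a3 => le_trans ?_
      (Finset.single_le_sum (fun j _ => h0 r j) (Finset.mem_univ j))⟩
    obtain ⟨g, g1, g2, g3⟩ := a3 j
    have h2 := j.2
    have hb := N.ok.bdry l
    rw [mem_ofPred, base_of (isPrime_of j.2)] at h2
    rw [base_of (isPrime_of j.2)]
    have h3 := iInf₂_le (f := fun D (_ : J.IsPrime (Cm n) D ∧ closure (N.f '' D) = j) =>
      ((sInf (mulSet n p N.f D j) : ℕ) : ENNReal) * (1 - ENNReal.ofReal (Δ D))⁻¹) (N.G l)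
      ⟨isPrime_of_hy hD (hG.connG l), h1⟩
    rw [hΔ.val] at h3
    refine H964.coef_le (Nat.pos_of_ne_zero fun c => g2 ?_) (Nat.sInf_le (s := mulSet n p N.f _ j)
      ⟨x, hx, ζ, η j, g, isLocalEq_of_leq a1, isLocalEq_of_leq (a2 j), hol_iff.1 g1, g2,
        g3.mono fun _ c => c.trans (mul_comm _ _)⟩) (Rat.cast_nonneg.2 hb.1)
      ((Rat.cast_le.2 hb.2).trans_eq Rat.cast_one) h3 h2
    have := g3.self_of_nhds
    rwa [c, pow_zero, mul_one, (a2 j).mem.2 (hj x hx), eq_comm] at this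
  have hT : ∀ j : {D | base (Cm n) (Cm p) N.f Δ D ≠ 0}, An n (N.f ⁻¹' j.1) := fun j =>
    (an_of_leq (snc_hy hΓ j.2)).pre hf
  refine fun c => ?_
  obtain ⟨z, h1, j, h2⟩ := (Hp.cov (fun j => (hT j).closed) hx (c.mono fun z a b =>
    by_contra fun k => a ⟨b, .inl fun j k' => k ⟨j, k'⟩⟩)).exists
  exact hS ⟨j, Hp.idh (hG.connG l).2 hD (hT j) h1 h2⟩

theorem tau_base (hR : REM) (hO : REGO) (hG : N.Good) (hΔ : Rep N.toFb Δ) (hB : ∀ l, ¬ N.Bad l)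
    {j : ℕ} (h : ∃ (m : ℕ) (k : Set N.Y.X → ℕ) (s : ℕ → N.Y.X → ℂ) (z : N.Y.X), 0 < m ∧
      (∀ D, (k D : ℝ) = m * base (Cm n) (Cm p) N.f Δ D) ∧
      (∀ b, J.IsSection (Cm p) (fun (D : Set N.Y.X) x g => J.IsLocalEq (Cm p) D g x) m k (s b)) ∧
      (∀ D, k D ≠ 0 → ∃ g, J.IsLocalEq (Cm p) D g z ∧ g z ≠ 0) ∧ s 0 z ≠ 0 ∧
      Surjective fun (ξ : Cm p) (b : Fin j) => J.dif (Cm p) (fun w => s (b + 1) w / s 0 w) z ξ) :
    N.toFb.Tau j := by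
  obtain ⟨m, k, s, z, h1, h2, h3, h4, h5⟩ := h
  have hb := cbase_of hR hO n p M₀ N Δ hG hΔ
  have hm : (m : ℝ) ≠ 0 := Nat.cast_ne_zero.2 h1.ne'
  have hΓ : J.IsSNC (Cm p) (base (Cm n) (Cm p) N.f Δ) := by
    refine ⟨(finite_range N.E).subset fun D c => (hb D c).imp fun _ => Eq.symm,
      fun D => isPrime_of, fun D => ?_, Cio.csnc p N.Y _ N.E _ N.snc hb⟩
    have e : base (Cm n) (Cm p) N.f Δ D = ((k D / m : ℚ) : ℝ) := by
      push_cast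
      rw [h2, mul_div_cancel_left₀ _ hm]
    have := base_bd (n := n) (p := p) N.f Δ D
    exact ⟨_, e, by exact_mod_cast e ▸ this⟩
  have := hΓ.1.fintype
  obtain ⟨m, k1, τ, k2, k3⟩ := kapL_of (i := fun y => y) hΓ holM_id ⟨m, k, s, z, h1, h2,
    fun b y => let ⟨T, g, a, c1, c2, c3⟩ := h3 b y
      ⟨T, g, a, c1, fun D c => ⟨_, c2 D c, .of_forall fun _ => rfl⟩, c3⟩,
    fun D c => (h4 D c).imp fun g c => ⟨⟨g, c.1, .of_forall fun _ => rfl⟩, c.2⟩, h5⟩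
  exact ⟨m, _, τ, k1, snc_thin_off (snc_snc hΓ), fun b => tb_base N.ok.fibn.hol N.ok.snc
    (snc_snc hΓ) (fun x c j a => let ⟨i, e⟩ := hb _ j.2; N.pre x c i (e.subset a))
    (fun l => by exact_mod_cast (N.ok.bdry l).1) (fun j => (base_bd _ _ _).2) (k2 b)
    (num hR hG hΔ hB hΓ fun D c => by obtain ⟨i, rfl⟩ := hb D c; exact hG.connE i),
    by rwa [compl_compl]⟩

end Vale.Agent.P281Z.Tp
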