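import Vale.Agent.P281Z.Tp.Tau
import Vale.Agent.P281Z.Tp.Base

/-!
# P281Z, block TOP: from the core inequality to the final statement
-/

open scoped Manifold ContDiff Topology
open Set Filter Function
open Vale.Agent.P272.K Vale.Agent.P285.H281.FD Vale.Agent.P281
open Vale.Agent.P281.H713.TZ.S (IsModif Fib kodR kodX)
open Vale.Agent.P281.H511.Surf (IsFibration)
open Vale.Agent.P281.H303.StatC (ClassC)
open Vale.Agent.P281Z.Nt

noncomputable section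

namespace Vale.Agent.P281Z.Tp

theorem modif_of (hG : GEN) {n : ℕ} {V V₁ : Mf n} {u : V₁.X → V.X} (h : IsModif (Cm n) u) :
    ∃ B, Modif n u B := by
  obtain ⟨-, hu, -, U, h1, h2, h3, h4⟩ := h
  have hu : HolM n n u := hu
  have hc := hu.cont
  have hS : P277Z.Slc.Snc n (isEmptyElim : Empty → Set V₁.X) := fun _ =>
    ⟨isEmptyElim, isEmptyElim, fun l => isEmptyElim l.1, fun _ _ => linearIndependent_empty_type⟩
  obtain ⟨Q, k1, k2⟩ := hG n n V₁ V u Empty _ hu hS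
  have k3 : ∀ x, u x ∉ Q → Sbm n n u x := fun x hx => (k2 _ hx).sbm hu hS rfl
  refine ⟨Q, k1, hu, fun _ => trivial, dense_closure.1 (h3.mono fun x hx => ?_), fun y _ hy => ?_,
    fun x hx => imm_iff_sbm.2 (k3 x hx)⟩
  · refine mem_closure_iff_nhds.2 fun W hW => ?_
    obtain ⟨y, a1, a2, a3⟩ := ((k1.freq (u x)).and_eventually ((hc.isClosedMap.eventually_nhds_fiber
      (p := fun z => z ∈ W) (u x) fun z hz => (h4 _ hx).unique hz rfl ▸ hW).and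
      (h1.mem_nhds hx))).exists
    obtain ⟨z, rfl, -⟩ := h4 y a3
    exact ⟨z, a2 z rfl, a1⟩
  obtain ⟨x, rfl⟩ := (isCompact_range hc).isClosed.closure_subset_iff.2
    (fun z hz => (h4 z hz).exists) (h2 y)
  refine ⟨x, rfl, fun x' (e : u x' = u x) => by_contra fun hne => ?_⟩
  obtain ⟨W, W', a1, a2, a3, a4, a5⟩ := t2_separation hne
  obtain ⟨z, b1, ⟨w, b2, b3⟩, w', b4, b5⟩ := ((mem_closure_iff_frequently.1 (h2 (u x))).and_eventually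
    ((e ▸ (k3 x' (e ▸ hy)).ev (hu.at x') (a1.mem_nhds a3)).and
      ((k3 x hy).ev (hu.at x) (a2.mem_nhds a4)))).exists
  exact disjoint_left.1 a5 b2 ((h4 z b1).unique b5 b3 ▸ b4)

/-- a Kähler log model -/
theorem kmodel (h3 : LOGM) (h4 : GEN) {n p : ℕ} (M : Fb n p) (hM : M.Ok) (hC : ClassC n M.X.X) :
    ∃ (M₁ : Fb n p) (u : M₁.X.X → M.X.X) (v : M₁.Y.X → M.Y.X), M₁.Ok ∧ M₁.Sq M u v ∧ M₁.X.Kah ∧
      ∀ l, IsConnected (M₁.G l) := by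
  obtain ⟨X₁, _, _, u, hu, hK⟩ := hC
  have := hu.1.2.1
  have := hu.1.2.2.2
  have : CompactSpace X₁ := ⟨by simpa using hu.2.2.1.isCompact_preimage isCompact_univ⟩
  obtain ⟨B, hB⟩ := modif_of h4 (V₁ := ⟨X₁⟩) hu
  obtain ⟨V₁, u', κ₁, _, G₁, δ₁, -, ⟨B₁, k1⟩, k2, k6, k3, -, k4, -, k5⟩ :=
    h3 n M.X ⟨X₁⟩ u B M.κ M.G M.δ ∅ hB hM.snc hM.bdry thin_empty
  have := hM.conn
  exact ⟨⟨V₁, M.Y, fun x => M.f (u (u' x)), κ₁, G₁, δ₁⟩, fun x => u (u' x), fun y => y,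
    ⟨k1.conn, hM.fibn.modif k1, k2, k3⟩, ⟨⟨_, k1⟩, ⟨_, modif_id⟩, fun _ => rfl, k4⟩, k5 hK, k6⟩

/-- the inequality for a total space in the class `𝒞` -/
theorem coreC (h1 : CORE) (h2 : MODEL) (h3 : LOGM) (h4 : GEN) {n p d : ℕ} (M : Fb n p)
    (hn : n = p + d) (hM : M.Ok) (hC : ClassC n M.X.X) {a k : ℕ} (ha : M.Fib d a) (hk : M.Tau k) :
    M.Kap (a + k) :=
  let ⟨M₁, u, v, k1, k2, k3, _⟩ := kmodel h3 h4 M hM hC
  have hle := h2 n p M₁ M u v hM k1 k2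
  hle.kap _ (h1 n p d _ hn k1 k3 a k ((hle.fib d a).1 ha) (hle.tau k hk))

theorem vg_of (h4 : GEN) {p d : ℕ} {X Y : Type} [TopologicalSpace X] [ChartedSpace (Cm (p + d)) X]
    [TopologicalSpace Y] [ChartedSpace (Cm p) Y] {f : X → Y} {Δ : Set X → ℝ}
    (h : IsFibration (Cm (p + d)) (Cm p) f Δ) {c : WithBot ℕ∞} {P : ℕ → Prop}
    (hc : c ≤ ⨆ (k : ℕ) (_ : P k), (k : WithBot ℕ∞)) (hP : ∀ k, P k → k ≤ p)
    (H : ∀ a k, (fbOf h).Fib d a → P k → (fbOf h).Kap (a + k)) :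
    Top.VeryGen (p + d) p d f fun _ _ _ i =>
      kodR (Cm (p + d)) (Cm d) i Δ + c ≤ kodX (Cm (p + d)) Δ := by
  obtain ⟨hM, hR⟩ := Cio.cin _ _ X Y f Δ h
  have := h.manifold.1
  have := h.manifold.2
  have := h.hausdorff.1
  have := h.hausdorff.2
  have := h.compact
  have := hM.connY
  have : Nonempty Y := (inferInstance : Nonempty (fbOf h).Y.X)
  let _ : Fintype {D : Set X | Δ D ≠ 0} := h.snc.1.fintype
  have hf : HolM (p + d) p f := h.hol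
  have e : (fun l : (fbOf h).κ => ((fbOf h).δ l : ℝ)) = fun l => Δ l.1 :=
    funext fun l => (hR.val l).symm
  obtain ⟨Q, hQ, hr⟩ := h4 _ p _ _ _ _ (fbOf h).G hM.fibn.hol hM.snc
  obtain ⟨S, h5, h6⟩ := hQ.neg.union
    (.iUnion fun a : {a // ¬ (fbOf h).Fib d a} => not_not.1 a.2)
  refine ⟨S, fun k => ⟨Thin.ne_univ (X := Y) (h5 k), fun y => let ⟨r, g, a, b⟩ := (h5 k).1 y
    ⟨r, g, fun c => hol_iff.1 (a c), b⟩⟩, fun y hy => ?_⟩
  have h7 := fun c => (mem_iUnion.1 (h6 (a := y) c)).elim hy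
  refine ⟨?_, fun F _ _ i hi => ?_⟩
  · obtain ⟨F, i, hi⟩ := fib_emb (d := d) (y := y) rfl hf fun _ =>
      (hr y fun c => h7 (.inl c)).sbm hf hM.snc
    exact ⟨F.X, _, _, i, ⟨inferInstance, hi.conn.2 (h.fibres y), inferInstance, hi.hol,
      fun t => (imm_iff (hi.hol.at t)).1 (hi.imm t), hi.fib⟩, hi.inj, hi.rng⟩
  have := hi.1.compact
  have := hi.1.manifold
  have hi' : HolM d (p + d) i := hi.1.hol
  have := T2Space.of_injective_continuous hi.2.1 hi'.cont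
  refine (add_le_add_right hc _).trans (sup_add (N := d) (fun a c => (kapL_of h.snc hi' c).le) hP
    fun a k c1 c2 => ?_)
  have c3 := kapL_of h.snc hi' c1
  have h8 := H a k (by_contra fun c =>
    h7 (.inr (mem_iUnion.2 ⟨⟨a, c⟩, ⟨F⟩, i, ⟨hi', hi.2.1, fun t => (imm_iff (hi'.at t)).2
      (hi.1.immersion t), hi.2.2⟩, by rw [e]; exact c3⟩))) c2
  rw [Fb.Kap, e] at h8
  exact le_kodX h.snc h8

theorem final_of (h1 : CORE) (h2 : MODEL) (h3 : LOGM) (h4 : GEN) (h5 : REM) (h6 : REGO)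
    (h7 : NEATK) (h8 : CSTEP) : Top.Final := by
  intro p d X Y _ _ _ _ f Δ h hC
  obtain ⟨hM, hR⟩ := Cio.cin _ _ X Y f Δ h
  obtain ⟨M₁, u, v, a1, a2, a3, a4⟩ := kmodel h3 h4 _ hM hC
  obtain ⟨Δ₁, b1, b2⟩ := Cio.cout _ p M₁ a1 a4
  obtain ⟨N, c1, c2, -⟩ := h7 _ p M₁ ∅ a1 thin_empty
  obtain ⟨Δ₂, d1, d2⟩ := Cio.cout _ p N.toFb N.ok c1.connG
  have l1 := h2 _ p M₁ _ u v hM a1 a2
  have l2 := h2 _ p N.toFb M₁ _ _ a1 N.ok N.sq
  exact vg_of h4 h (iInf₂_le (⟨N.X.X, N.Y.X, _, _, _, _, N.f, Δ₂⟩ : Fib (Cm (p + d)) (Cm p))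
    (.trans _ ⟨M₁.X.X, M₁.Y.X, _, _, _, _, M₁.f, Δ₁⟩ _
      (.symm _ _ (.rel _ _ (h8 _ p M₁ _ Δ₁ Δ u v hM a1 hR b1 h.snc b2.snc a2)))
      (.symm _ _ (.rel _ _ (h8 _ p N.toFb M₁ Δ₂ Δ₁ _ _ a1 N.ok b1 d1 b2.snc d2.snc N.sq)))))
    (fun k c => let ⟨_, _, _, _, _, _, c⟩ := tau_base h5 h6 c1 d1 c2 c; c.le) fun a k e1 e2 =>
      l1.kap _ (l2.kap _ (h1 _ p d _ rfl N.ok (N.kahX a3) a k ((l2.fib d a).1 ((l1.fib d a).1 e1))
        (tau_base h5 h6 c1 d1 c2 e2)))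

theorem coreS_of (h1 : CORE) (h2 : MODEL) (h3 : LOGM) (h4 : GEN) : Top.CoreS := by
  intro p d X Y _ _ _ _ f Δ h hC
  obtain ⟨hM, hR⟩ := Cio.cin _ _ X Y f Δ h
  have := h.manifold.1
  have := h.manifold.2
  let _ : Fintype {D : Set X | Δ D ≠ 0} := h.snc.1.fintype
  refine vg_of h4 h le_rfl (fun k c => let ⟨_, _, _, _, _, _, c⟩ := tau_of h.snc h.hol c; c.le)
    fun a k c1 c2 => ?_
  have c4 := tau_of h.snc h.hol c2
  exact coreC h1 h2 h3 h4 _ rfl hM hC c1 (by simp only [Fb.Tau, ← hR.val]; exact c4)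

end Vale.Agent.P281Z.Tp
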