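import Vale.Agent.P281Z.Tp.Core
import Vale.Agent.P281Z.Nt.Neat
import Vale.Agent.P281Z.Nt.Step
import Vale.Agent.P281Z.Md.All

/-!
# P281Z, block TOP: the final statement from the core inequality
-/

namespace Vale.Agent.P281Z.Tp

theorem model : MODEL := Md.model rem genS

theorem final_core (h : CORE) : Top.Final :=
  final_of h model logm genS rem Nt.rego Nt.neatk (Nt.cstep_of Nt.genc)

theorem coreS_core (h : CORE) : Top.CoreS := coreS_of h model logm genS

theorem final_blocks (h0 : KY) (h1 : R1) (h2 : PK) (h3 : END) : Top.Final :=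
  final_core (core_of h0 bc model (coreK_of h1 h2 h3 dim mono))

end Vale.Agent.P281Z.Tp
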