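import Vale.Agent.P281Z.Nt.Cio
import Vale.Agent.P281Z.Sc.Sy

/-!
# P281Z, block TOP: pluricanonical sections in the two languages
-/

open scoped Manifold ContDiff Topology
open Set Filter Function
open Vale.Agent.P272.K Vale.Agent.P285.H281.FD Vale.Agent.P281
open Vale.Agent.P281.H713.TZ.S (kodX kodR)
open Vale.Agent.P277Z (Hol Nz at_chart)
open Vale.Agent.P277Z.Slc (Ind LEq Snc isLB_can)
open Vale.Agent.P281Z.Nt

set_option linter.unusedSectionVars false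

noncomputable section

namespace Vale.Agent.P281Z.Tp

theorem sup_max {P : ℕ → Prop} {N : ℕ} (h0 : ∃ a, P a) (hN : ∀ a, P a → a ≤ N) :
    ∃ a, P a ∧ (⨆ (j : ℕ) (_ : P j), (j : WithBot ℕ∞)) ≤ a := by
  classical
  exact ⟨Nat.findGreatest P N, h0.elim fun a ha => Nat.findGreatest_spec (hN a ha) ha,
    iSup₂_le fun j hj => by exact_mod_cast Nat.le_findGreatest (hN j hj) hj⟩

theorem sup_add {P Q : ℕ → Prop} {N N' : ℕ} {c : WithBot ℕ∞} (hP : ∀ a, P a → a ≤ N)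
    (hQ : ∀ a, Q a → a ≤ N') (h : ∀ a k, P a → Q k → ((a + k : ℕ) : WithBot ℕ∞) ≤ c) :
    (⨆ (j : ℕ) (_ : P j), (j : WithBot ℕ∞)) + (⨆ (j : ℕ) (_ : Q j), (j : WithBot ℕ∞)) ≤ c := by
  by_cases h1 : ∃ a, P a
  · by_cases h2 : ∃ k, Q k
    · obtain ⟨a, a1, a2⟩ := sup_max h1 hP
      obtain ⟨k, k1, k2⟩ := sup_max h2 hQ
      exact (add_le_add a2 k2).trans (by exact_mod_cast h a k a1 k1)
    · simp [not_exists.1 h2]
  · simp [not_exists.1 h1]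

variable {n d m j : ℕ} {X F : Type} [TopologicalSpace X] [ChartedSpace (Cm n) X]
  [TopologicalSpace F] [ChartedSpace (Cm d) F] [IsManifold 𝓘(ℂ, Cm n) ω X]
  [IsManifold 𝓘(ℂ, Cm d) ω F] {e e' e'' : Chart d F} {z : F} {s : F → ℂ}

variable (m) in
/-- the coefficient of a pluricanonical form in the chart `e` -/
def fr (s : F → ℂ) (e : Chart d F) (z : F) : ℂ := (jacM e (chartAt (Cm d) z) z).det ^ m * s z

theorem jac_mul (he : At e z) (he' : At e' z) (he'' : At e'' z) :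
    (jacM e e' z).det * (jacM e' e'' z).det = (jacM e e'' z).det :=
  (isLB_can (n := d)).cocycle e e' e'' z he he' he''

theorem jac_ne (he : At e z) (he' : At e' z) : (jacM e e' z).det ^ m ≠ 0 :=
  pow_ne_zero m ((isLB_can (n := d)).ne_zero e e' z he he')

theorem fr_chg (he : At e z) (he' : At e' z) :
    fr m s e z = (jacM e e' z).det ^ m * fr m s e' z := by
  rw [fr, fr, ← mul_assoc, ← mul_pow, jac_mul he he' (at_chart z)]

theorem det_mfd (he : At e z) : ContinuousLinearMap.det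
    (mfderiv 𝓘(ℂ, Cm d) 𝓘(ℂ, Cm d) e z : Cm d →L[ℂ] Cm d) = (jacM (chartAt (Cm d) z) e z).det := by
  rw [mfd_chart he, det_jacM (at_chart z) he]
  rfl

theorem sec_loc {ι : Type} {eqn : ι → F → (F → ℂ) → Prop} {k : ι → ℕ}
    (h : J.IsSection (Cm d) eqn m k s) (he : At e z) :
    ∃ (T : Finset ι) (g : ι → F → ℂ) (b : F → ℂ), (∀ i, k i ≠ 0 → i ∈ T) ∧
      (∀ i ∈ T, eqn i z (g i)) ∧ Hol d b z ∧ ∀ᶠ w in 𝓝 z, ∏ i ∈ T, g i w ^ k i ≠ 0 →
        fr m s e w * ∏ i ∈ T, g i w ^ k i = b w := by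
  obtain ⟨T, g, a, h1, h2, h3, h4⟩ := h z
  have hc := at_chart (n := d) z
  refine ⟨T, g, fun w => (jacM e (chartAt (Cm d) z) w).det ^ m * a w, h1, h2,
    ((lb_hol isLB_can he hc).pow m).mul (hol_iff.2 h3), ?_⟩
  filter_upwards [h4, at_near he, at_near hc] with w k1 k2 k3 k4
  rw [fr, mul_assoc, k1 k4, det_mfd k3, ← jac_mul k2 (at_chart w) k3]
  ring

theorem rk_of {s : ℕ → F → ℂ} (h : ∀ b, Hol d (fr m (s b) (chartAt (Cm d) z)) z) (h0 : s 0 z ≠ 0)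
    (hs : Surjective fun (ξ : Cm d) (b : Fin j) =>
      J.dif (Cm d) (fun w => s (b + 1) w / s 0 w) z ξ) :
    RkAt d ((Bd.can d F).pow m) (fun b : Fin (j + 1) => fr m (s b)) z := by
  have hc := at_chart (n := d) z
  have h1 : fr m (s 0) (chartAt (Cm d) z) z ≠ 0 := mul_ne_zero (jac_ne hc hc) h0
  have h2 : ∀ b, ∀ᶠ w in 𝓝 z, s b w / s 0 w =
      fr m (s b) (chartAt (Cm d) z) w / fr m (s 0) (chartAt (Cm d) z) w := fun b =>
    (at_near hc).mono fun w k => (mul_div_mul_left _ _ (jac_ne k (at_chart w))).symm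
  exact ⟨_, hc, h1, ind_congr ((ind_iff fun b : Fin j => ((h (b + 1)).div (h 0) h1).congr
    ((h2 _).mono fun _ => Eq.symm)).2 hs) fun b => h2 _⟩

variable {Δ : Set X → ℝ} [Fintype {D : Set X | Δ D ≠ 0}] {k : Set X → ℕ} {x : X} {i : F → X}

theorem loc_eq (hΔ : J.IsSNC (Cm n) Δ) (hk : ∀ D, k D ≠ 0 → Δ D ≠ 0) {T : Finset (Set X)}
    (hT : ∀ D, k D ≠ 0 → D ∈ T) {g : Set X → X → ℂ} (hg : ∀ D ∈ T, J.IsLocalEq (Cm n) D (g D) x) :
    ∃ ζ : {D : Set X | Δ D ≠ 0} → X → ℂ, (∀ l, LEq n l.1 x (ζ l)) ∧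
      ∀ y, ∏ D ∈ T, g D y ^ k D = ∏ l, ζ l y ^ k l := by
  classical
  obtain ⟨ζ, hζ, -⟩ := snc_snc hΔ x
  refine ⟨fun l => if l.1 ∈ T then g l else ζ l, fun l => ?_, fun y => ?_⟩
  · beta_reduce
    split_ifs with h
    exacts [snc_leq hΔ l.2 (hg _ h), hζ l]
  rw [Finset.prod_congr_of_eq_on_inter (s₂ := Finset.univ.map (.subtype (· ∈ {D : Set X | Δ D ≠ 0})))
    (g := fun D => g D y ^ k D) (fun D _ h => by
      rw [not_not.1 fun c => h (Finset.mem_map.2 ⟨⟨D, hk D c⟩, Finset.mem_univ _, rfl⟩), pow_zero])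
    (fun D _ h => by rw [not_not.1 fun c => h (hT D c), pow_zero]) fun _ _ _ => rfl,
    Finset.prod_map]
  refine Finset.prod_congr rfl fun l _ => ?_
  beta_reduce
  split_ifs with h
  · rfl
  · show g l y ^ k l = _
    rw [show k l = 0 from not_not.1 fun c => h (hT _ c), pow_zero, pow_zero]

theorem wt_nat {κ : Type} [Fintype κ] (a : κ → ℂ) {c : κ → ℝ} {k : κ → ℕ} (h : ∀ l, (k l : ℝ) = c l) :
    ∏ l, ‖a l‖ ^ c l = ‖∏ l, a l ^ k l‖ := by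
  rw [norm_prod]
  exact Finset.prod_congr rfl fun l _ => by rw [← h, Real.rpow_natCast, norm_pow]

theorem secP_of (hΔ : J.IsSNC (Cm n) Δ) (hi : HolM d n i) (hk : ∀ D, (k D : ℝ) = m * Δ D)
    (h : J.IsSection (Cm d) (fun (D : Set X) t g => ∃ e, J.IsLocalEq (Cm n) D e (i t) ∧
      ∀ᶠ s in 𝓝 t, g s = e (i s)) m k s) :
    SecP d n i univ ((Bd.can d F).pow m) (fun l : {D : Set X | Δ D ≠ 0} => l.1)
      (fun l => m * Δ l) (fr m s) := by
  have key : ∀ e z, At e z → ∃ (ζ : {D : Set X | Δ D ≠ 0} → X → ℂ) (b : F → ℂ),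
      (∀ l, LEq n l.1 (i z) (ζ l)) ∧ Hol d b z ∧ ∀ᶠ w in 𝓝 z,
        i w ∈ off (fun l : {D : Set X | Δ D ≠ 0} => l.1) → ∏ l, ζ l (i w) ^ k l ≠ 0 ∧
          fr m s e w * ∏ l, ζ l (i w) ^ k l = b w := fun e z he => by
    obtain ⟨T, g, b, h1, h2, h3, h4⟩ := sec_loc h he
    choose! g' h5 h6 using h2
    obtain ⟨ζ, h7, h8⟩ := loc_eq hΔ (fun D c c' => c (Nat.cast_eq_zero.1 ((hk D).trans
      (by rw [c', mul_zero])))) h1 h5
    refine ⟨ζ, b, h7, h3, ?_⟩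
    filter_upwards [h4, (T.eventually_all).2 h6, hi.cont.continuousAt.eventually (off_iff h7)]
      with w k1 k2 k3 k4
    rw [Finset.prod_congr rfl fun D hD => by rw [k2 D hD], h8] at k1
    exact and_iff_left_of_imp k1 |>.2 (Finset.prod_ne_zero_iff.2 fun l _ =>
      pow_ne_zero _ (k3.1 k4 l))
  refine ⟨fun e z _ he hz => ?_, fun e e' z _ he he' _ => fr_chg he he', fun e z _ he => ?_⟩
  · obtain ⟨ζ, b, h1, h2, h3⟩ := key e z he
    refine (h2.div (Hol.prod _ fun l _ => (hi.hol (h1 l).hol).pow (k l))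
      (h3.self_of_nhds hz).1).congr ?_
    filter_upwards [h3, hi.cont.continuousAt.eventually
      ((Hyp.of_snc (snc_snc hΔ)).isOpen.mem_nhds hz)] with w k1 k2
    rw [← (k1 k2).2, mul_div_cancel_right₀ _ (k1 k2).1]
  · obtain ⟨ζ, b, h1, h2, h3⟩ := key e z he
    obtain ⟨C, -, hC⟩ := bdd_near h2.cont.norm
    refine bdP_of_one hi.cont.continuousAt h1 (C := C) ?_
    filter_upwards [h3, hC] with w k1 k2 k3
    rwa [← (k1 k3).2, norm_mul, ← wt_nat _ fun l : {D : Set X | Δ D ≠ 0} => hk l] at k2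

theorem kapL_of (hΔ : J.IsSNC (Cm n) Δ) (hi : HolM d n i)
    (h : ∃ (m : ℕ) (k : Set X → ℕ) (s : ℕ → F → ℂ) (z : F), 0 < m ∧ (∀ D, (k D : ℝ) = m * Δ D) ∧
      (∀ b, J.IsSection (Cm d) (fun (D : Set X) t g => ∃ e, J.IsLocalEq (Cm n) D e (i t) ∧
        ∀ᶠ s in 𝓝 t, g s = e (i s)) m k (s b)) ∧
      (∀ D, k D ≠ 0 → ∃ g : F → ℂ, (∃ e, J.IsLocalEq (Cm n) D e (i z) ∧
        ∀ᶠ s in 𝓝 z, g s = e (i s)) ∧ g z ≠ 0) ∧ s 0 z ≠ 0 ∧
      Surjective fun (ξ : Cm d) (b : Fin j) => J.dif (Cm d) (fun w => s (b + 1) w / s 0 w) z ξ) :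
    KapL d n i (Bd.can d F) (fun l : {D : Set X | Δ D ≠ 0} => l.1) (fun l => Δ l) j := by
  obtain ⟨m, k, s, z, h1, h2, h3, h4, h5, h6⟩ := h
  have hz : i z ∈ off (fun l : {D : Set X | Δ D ≠ 0} => l.1) := fun l c => by
    obtain ⟨g, ⟨e, k1, k2⟩, k3⟩ := h4 l fun c' => mul_ne_zero (Nat.cast_ne_zero.2 h1.ne') l.2
      (by rw [← h2, c', Nat.cast_zero])
    exact k3 (k2.self_of_nhds.trans ((loc_mem k1).2 c))
  have h7 := fun b => secP_of hΔ hi h2 (h3 b)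
  exact ⟨m, h1, _, fun b => h7 _, z, hz, rk_of (fun b => (h7 b).hol _ z trivial (at_chart z) hz) h5 h6⟩

theorem ex_den (hΔ : J.IsSNC (Cm n) Δ) : ∃ N : ℕ, 0 < N ∧ ∀ D, ∃ a : ℕ, (a : ℝ) = N * Δ D := by
  choose q h1 h2 _ using hΔ.2.2.1
  refine ⟨∏ l : {D : Set X | Δ D ≠ 0}, (q l).den, Finset.prod_pos fun l _ => (q l).pos, fun D => ?_⟩
  by_cases hD : Δ D = 0
  · exact ⟨0, by simp [hD]⟩
  obtain ⟨c, hc⟩ := Finset.dvd_prod_of_mem (fun l : {D : Set X | Δ D ≠ 0} => (q l).den)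
    (Finset.mem_univ ⟨D, hD⟩)
  refine ⟨c * (q D).num.toNat, ?_⟩
  have : ((q D).num.toNat : ℚ) = (q D).den * q D := by
    rw [Rat.den_mul_eq_num, ← Int.cast_natCast, Int.toNat_of_nonneg (Rat.num_nonneg.2 (h2 D))]
  rw [hc, h1 D, Nat.cast_mul, Nat.cast_mul, mul_comm _ (c : ℝ), mul_assoc]
  exact congrArg _ (by exact_mod_cast this)

theorem le_kodX (hΔ : J.IsSNC (Cm n) Δ)
    (h : KapL n n id (Bd.can n X) (fun l : {D : Set X | Δ D ≠ 0} => l.1) (fun l => Δ l) j) :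
    (j : WithBot ℕ∞) ≤ kodX (Cm n) Δ := by
  obtain ⟨m₀, h0, h⟩ := h
  obtain ⟨N, hN, hk⟩ := ex_den hΔ
  have hG := snc_snc hΔ
  have hH := Hyp.of_snc hG
  obtain ⟨t, h1, x, hx, e, he, h2, h3⟩ := h.mul_right hH continuous_id isLB_can hN
  have hm := mul_pos h0 hN
  obtain ⟨k, hk⟩ : ∃ k : Set X → ℕ, ∀ D, (k D : ℝ) = (m₀ * N : ℕ) * Δ D := by
    choose k hk using hk
    exact ⟨fun D => m₀ * k D, fun D => by push_cast; rw [hk, mul_assoc]⟩
  generalize m₀ * N = m at *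
  have hk0 : ∀ D, k D ≠ 0 ↔ Δ D ≠ 0 := fun D => by
    rw [← Nat.cast_ne_zero (R := ℝ), hk, mul_ne_zero_iff_left (Nat.cast_ne_zero.2 hm.ne')]
  choose! g hg using fun y D hD => (hΔ.2.1 D hD).2.1 y
  have h4 : ∀ b, ∀ᶠ w in 𝓝 x, t b (chartAt (Cm n) w) w =
      (jacM (chartAt (Cm n) w) e w).det ^ m * t b e w := fun b => by
    filter_upwards [at_near he, hH.isOpen.mem_nhds hx] with w k1 k2
      using (h1 b).chg _ _ w trivial (at_chart w) k1 k2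
  refine le_iSup₂_of_le j ⟨m, k, fun b w => t (Fin.ofNat (j + 1) b) (chartAt (Cm n) w) w, x, hm, hk,
    fun b y => ?_, fun D hD => ⟨_, hg x D ((hk0 D).1 hD), fun c => hx ⟨D, (hk0 D).1 hD⟩
      ((loc_mem (hg x D ((hk0 D).1 hD))).1 c)⟩, ?_, ?_⟩ le_rfl
  · have hc := at_chart (n := n) y
    have hζ : ∀ l : {D : Set X | Δ D ≠ 0}, LEq n l.1 y (g y l) := fun l =>
      snc_leq hΔ l.2 (hg y _ l.2)
    obtain ⟨a, k1, k2⟩ := ((h1 (Fin.ofNat _ b)).bdP trivial hc).ext hG (k := fun l => k l.1)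
      (fun l _ => by simp [hk]) ((h1 _).ev (lb_pow isLB_can m) isOpen_univ trivial hc) hζ
    refine ⟨hΔ.1.toFinset, g y, a, fun D c => hΔ.1.mem_toFinset.2 ((hk0 D).1 c),
      fun D c => hg y D (hΔ.1.mem_toFinset.1 c), hol_iff.1 k1, ?_⟩
    filter_upwards [k2, at_near hc, off_iff hζ] with w k3 k4 k5 k6
    rw [Finset.prod_subtype (p := fun D => D ∈ {D : Set X | Δ D ≠ 0}) _
      fun D => hΔ.1.mem_toFinset] at k6 ⊢
    have k7 := k5.2 fun l c => Finset.prod_ne_zero_iff.1 k6 l (Finset.mem_univ l)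
      (by rw [c, zero_pow ((hk0 _).2 l.2)])
    rw [k3 k7, det_mfd k4, (h1 _).chg _ _ w trivial (at_chart w) k4 k7]
    simp only [zpow_natCast]
    exact (mul_assoc _ _ _).trans (mul_comm _ _)
  · exact (h4 0).self_of_nhds.trans_ne (mul_ne_zero (jac_ne (at_chart x) he) h2)
  · have h5 : ∀ b : Fin j, ∀ᶠ w in 𝓝 x, t b.succ e w / t 0 e w =
        t (Fin.ofNat (j + 1) (b + 1)) (chartAt (Cm n) w) w / t 0 (chartAt (Cm n) w) w := fun b => by
      rw [show Fin.ofNat (j + 1) (b + 1) = b.succ from Fin.ext (Nat.mod_eq_of_lt b.succ.2)]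
      filter_upwards [h4 b.succ, h4 0, at_near he] with w k1 k2 k3
      rw [k1, k2, mul_div_mul_left _ _ (jac_ne (at_chart w) k3)]
    have h6 := ind_congr h3 h5
    exact (ind_iff h6.1).1 h6

end Vale.Agent.P281Z.Tp
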