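import Vale.Agent.P281Z.Tp.Spc
import Vale.Agent.P281Z.Top3

/-!
# P281Z, block TOP: compact Kähler manifolds are compact Kähler spaces
-/

open scoped Manifold ContDiff Topology
open Set Filter
open Vale.Agent.P272.K
open Vale.Agent.P277 (CSp IsReg HolAt)
open Vale.Agent.P277.H60.Z (XH)
open Vale.Agent.P277Z (Hol at_chart)
open Vale.Agent.P277Z.GH.Ka (model_chart an_model)
open Vale.Agent.P284Y.Lib (two_le_inf)

noncomputable section

namespace Vale.Agent.P281Z.Tp

theorem flat_xh {m : ℕ} {V : Mf m} {u : V.X → ℝ} {g : Cm m → V.X} {z : Cm m}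
    (hg : HolAt (XH m V.X) g z) (hu : P277Z.Pos.FlatAt m u (g z)) :
    cHess (fun w => u (g w)) z = 0 := by
  obtain ⟨e, he⟩ : ∃ e : Chart m V.X, At e (g z) := ⟨_, at_chart _⟩
  have c : ContinuousAt g z := hg.1
  have d : (fun w => u (g w)) =ᶠ[𝓝 z] fun w => (fun t => u (e.symm t)) (e (g w)) :=
    (c.eventually (e.open_source.mem_nhds he.2)).mono fun w c => congrArg u (e.left_inv c).symm
  rw [cHess_congr d]
  exact P277Z.GH.Ka.flat_comp (u := fun t => u (e.symm t)) (τ := fun w => e (g w))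
    (an_model (model_chart he) he.2 hg) ((hu e he).1.of_le two_le_inf) (hu e he).2

theorem kahSp_of {m : ℕ} (V : Mf m) (hV : V.Kah) : Top.KahSp m (XH m V.X) := by
  obtain ⟨w, hw⟩ := hV
  choose φ hφ using Rs.Kahr.pots hw
  choose U h1 h2 h3 using fun x => eventually_nhds_iff.1 (hφ x)
  refine ⟨fun x : V.X => subset_closure
      ⟨_, _, _, _, (at_chart (n := m) x).2, model_chart (at_chart x)⟩,
    V.X, U, φ, h2, fun x => ⟨x, h3 x⟩, fun a x hx => Pb.Rela.sp_of_pos (V := V)
      (mem_of_superset ((h2 a).mem_nhds hx) fun x hx e he =>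
        ⟨(h1 a x hx e he).1, (h1 a x hx e he).2 ▸ hw.posDef e x he⟩), fun i j g z hg _ a b =>
    flat_xh (V := V) (u := fun x => φ i x - φ j x) hg fun e he => ?_⟩
  have c1 := h1 i _ a e he
  have c2 := h1 j _ b e he
  refine ⟨c1.1.sub c2.1, ?_⟩
  rw [cHess_sub (c1.1.of_le two_le_inf) (c2.1.of_le two_le_inf), c1.2, c2.2, sub_self]

theorem inC_of {n : ℕ} (X : Mf n) (hX : Top.ClassF n X.X) : Top.InC n X.X := by
  obtain ⟨m, V, _, _, Z, τ, _, _, _, h1, h2, h3, h4, h5, h6⟩ := hX
  refine ⟨m, XH m V, Z, τ, kahSp_of ⟨V⟩ h1, fun x _ => let ⟨r, g, a, b⟩ := h2 x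
    ⟨r, g, fun c => Nt.hol_iff.2 (a c), b⟩, h3, fun (s : V) hs => ⟨(h4 s hs).continuousAt, fun g hg =>
      Nt.hol_iff.2 (ContMDiffAt.comp s hg (h4 s hs))⟩, h5, fun (s : V) x => ?_⟩
  obtain ⟨r, g, a, b⟩ := h6 (s, x)
  have he := at_chart (n := m) (W := V) s
  have he' := at_chart (n := n) x
  set e := chartAt (Cm m) s
  set e' := chartAt (Cm n) x
  refine ⟨m, n, r, fun i y => e y i, fun i y => e' y i, fun j q => g j (e.symm q.1, e'.symm q.2),
    fun i => hol_chart he i,
    fun i => Nt.hol_iff.1 (hol_chart he' i), fun j => ?_, ?_⟩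
  · have k : ContMDiffAt 𝓘(ℂ, Cm m × Cm n) (𝓘(ℂ, Cm m).prod 𝓘(ℂ, Cm n)) ω
        (fun q : Cm m × Cm n => (e.symm q.1, e'.symm q.2)) (e s, e' x) :=
      ((chart_symm_contMDiffAt he.1 he.mem_target).comp (e s, e' x)
        (contMDiffAt_iff_contDiffAt.2 contDiffAt_fst)).prodMk
      ((chart_symm_contMDiffAt he'.1 he'.mem_target).comp (e s, e' x)
        (contMDiffAt_iff_contDiffAt.2 contDiffAt_snd))
    exact (contMDiffAt_iff_contDiffAt.1 ((a j).comp_of_eq k
      (Prod.ext he.left_inv he'.left_inv))).analyticAt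
  · filter_upwards [b, prod_mem_nhds (e.open_source.mem_nhds he.2) (e'.open_source.mem_nhds he'.2)]
      with q c d
    refine c.trans (forall_congr' fun j => ?_)
    rw [show e.symm (fun i => e q.1 i) = q.1 from e.left_inv d.1,
      show e'.symm (fun i => e' q.2 i) = q.2 from e'.left_inv d.2]
    rfl

theorem classF_of {n : ℕ} (X : Mf n) (hX : Top.Fujiki n X.X) : Top.ClassF n X.X := by
  obtain ⟨m, V, _, _, g, k1, k2, k3, k4, hg, hs⟩ := hX
  have a : closure {z : V × X.X | z.1 ∉ (∅ : Set V) ∧ z.2 = g z.1} = {z | z.2 = g z.1} := by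
    simp only [mem_empty_iff_false, not_false_eq_true, true_and]
    exact (isClosed_eq continuous_snd (hg.continuous.comp continuous_fst)).closure_eq
  refine ⟨m, V, _, _, ∅, g, k1, k2, k3, k4, fun _ => ⟨1, fun _ _ => 1, fun _ => contMDiffAt_const,
    .of_forall fun _ => by simp⟩, by simp, fun v _ => hg v,
    by rw [compl_empty, image_univ]; exact hs.denseRange,
    a ▸ fun z => ?_⟩
  have c : ContinuousAt (fun z : V × X.X => g z.1) z :=
    (hg.continuous.comp continuous_fst).continuousAt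
  by_cases b : z.2 = g z.1
  · have he := at_chart (n := n) z.2
    set e := chartAt (Cm n) z.2
    have d := fun i => Nt.hol_iff.1 (hol_chart he i)
    refine ⟨n, fun i w => e w.2 i - e (g w.1) i, fun i => (ContMDiffAt.comp z (d i)
      contMDiffAt_snd).sub (ContMDiffAt.comp_of_eq (d i) ((hg _).comp z contMDiffAt_fst) b.symm), ?_⟩
    filter_upwards [continuousAt_snd.eventually (e.open_source.mem_nhds he.2),
      c.eventually (e.open_source.mem_nhds (show g z.1 ∈ e.source from b ▸ he.2))] with w w1 w2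
    exact ⟨fun k i => by rw [show w.2 = g w.1 from k, sub_self],
      fun k => e.injOn w1 w2 (funext fun i => sub_eq_zero.1 (k i))⟩
  · refine ⟨1, fun _ _ => 1, fun _ => contMDiffAt_const, ?_⟩
    filter_upwards [(isOpen_ne_fun continuous_snd (hg.continuous.comp continuous_fst)).mem_nhds b]
      with w k
    exact iff_of_false k (by simp)

end Vale.Agent.P281Z.Tp
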