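import Vale.Agent.P281Z.Tp.Sec
import Vale.Agent.P281Z.Md.Tr
import Vale.Agent.P281Z.Mf.Adj

/-!
# P281Z, block TOP: the saturation of `f^* K_Y` in the two languages
-/

open scoped Manifold ContDiff Topology
open Set Filter Function
open Vale.Agent.P272.K Vale.Agent.P285.H281.FD Vale.Agent.P281
open Vale.Agent.P281.H713.TZ.S (dch minors PullSec)
open Vale.Agent.P277Z (Hol Nz at_chart gen gen_of_nhds nz_of_gen)
open Vale.Agent.P277Z.Slc (Ind LEq Snc isLB_can)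
open Vale.Agent.P281Z.Nt

set_option linter.unusedSectionVars false

noncomputable section

namespace Vale.Agent.P281Z.Tp

variable {n p m j : ℕ} {X Y : Type} [TopologicalSpace X] [ChartedSpace (Cm n) X]
  [TopologicalSpace Y] [ChartedSpace (Cm p) Y] [IsManifold 𝓘(ℂ, Cm n) ω X]
  [IsManifold 𝓘(ℂ, Cm p) ω Y] {f : X → Y} {x y : X}

theorem dch_eq (hf : HolA n p f y) (he : At (chartAt (Cm n) x) y) (v : Cm n) :
    dch (Cm n) (Cm p) id f x y v = df f (chartAt (Cm n) x) (chartAt (Cm p) (f y)) y v := by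
  have hc := at_chart (n := n) y
  have h1 : ∀ {e e' : Chart n X}, At e y → At e' y →
      df (fun x : X => x) e' e y * df (fun x : X => x) e e' y = 1 := fun a b =>
    (df_comp (holM_id.at y) (holM_id.at y) a b a).symm.trans (df_id_self a)
  have h2 := Ring.mul_inverse_cancel _
    (Units.isUnit ⟨df (fun x : X => x) _ _ y, _, h1 he hc, h1 hc he⟩)
  have h3 := df_comp (f := fun x => x) hf (holM_id.at y) hc he (at_chart (f y))
  refine (congrArg₂ (fun (A : Cm n →L[ℂ] Cm p) (B : Cm n →L[ℂ] Cm n) => A (Ring.inverse B v))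
    ((mfd_eq hf).trans h3) (mfd_chart he)).trans ?_
  exact congrArg _ (DFunLike.congr_fun h2 v)

theorem minors_eq {e' : Chart p Y} (hf : HolA n p f y) (he : At (chartAt (Cm n) x) y)
    (he' : At e' (f y)) (I : Fin p → Fin n) : minors n p m id f x y (fun _ => I) =
      (jacM e' (chartAt (Cm p) (f y)) (f y)).det ^ m * minor f (chartAt (Cm n) x) e' I y ^ m := by
  rw [minors, Finset.prod_const, Finset.card_fin, ← mul_pow, minor_eq, ← Matrix.det_mul]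
  simp only [dch_eq hf he]
  refine congrArg (· ^ m) ((minor_eq I).trans ?_)
  rw [dfM_chg' hf he he' (at_chart _)]
  rfl

variable {Δ : Set X → ℝ} [Fintype {D : Set X | Δ D ≠ 0}] {K : Set X → ℕ} {𝒢 : Set (Set Y)}

theorem tb_of (hΔ : J.IsSNC (Cm n) Δ) (hf : HolM n p f) (hK : ∀ D, (K D : ℝ) ≤ m * Δ D)
    {σ : Y → ℂ} (h : PullSec (Cm n) (Cm p) m K 𝒢 id f (minors n p m id f) σ) :
    TB n p f (fun l : {D : Set X | Δ D ≠ 0} => l.1) (fun l => m * Δ l) m (⋃₀ 𝒢) (fr m σ) := by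
  classical
  obtain ⟨⟨k, h1, h2⟩, h3⟩ := h
  refine ⟨fun e y he hy => ?_, fun e y he => ?_, fun e e' y he he' _ => fr_chg he he',
    fun x e e' he he' ζ hζ I => ?_⟩
  · obtain ⟨T, g, b, -, k2, k3, k4⟩ := sec_loc h2 he
    have k5 : Hol p (fun w => ∏ G ∈ T, g G w ^ k G) y :=
      Hol.prod _ fun G hG => (loc_hol (k2 G hG)).pow _
    have k6 : ∏ G ∈ T, g G y ^ k G ≠ 0 := Finset.prod_ne_zero_iff.2 fun G hG c =>
      let ⟨c1, c2⟩ := pow_eq_zero_iff'.1 c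
      hy ⟨G, h1 G c2, (loc_mem (k2 G hG)).1 c1⟩
    refine (k3.div k5 k6).congr ?_
    filter_upwards [k4, k5.ne_near k6] with w a1 a2
    rw [← a1 a2, mul_div_cancel_right₀ _ a2]
  · obtain ⟨T, g, b, -, k2, k3, k4⟩ := sec_loc h2 he
    have k5 : ∀ᶠ w in gen {y}, ∏ G ∈ T, g G w ^ k G ≠ 0 :=
      (T.eventually_all.2 fun G hG => (loc_nz (k2 G hG)).gen (loc_hol (k2 G hG))).mono
        fun w a => Finset.prod_ne_zero_iff.2 fun G hG => pow_ne_zero _ (a G hG)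
    exact ⟨b, _, k3, Hol.prod _ fun G hG => (loc_hol (k2 G hG)).pow _, nz_of_gen k5,
      (k5.and (gen_of_nhds k4)).mono fun w a => a.2 a.1⟩
  obtain ⟨T, g, k1, k2, k3⟩ := h3 x
  obtain ⟨ξ, k4, k5⟩ := loc_eq hΔ (fun D c c' => c (Nat.cast_eq_zero.1 (le_antisymm
    ((hK D).trans (by rw [c', mul_zero])) (Nat.cast_nonneg _)))) k1 k2
  have hc := at_chart (n := n) x
  obtain ⟨C, hC⟩ := Md.lb_one.1 (Md.LB.chg (S := (f ⁻¹' ⋃₀ 𝒢)ᶜ ∩ off fun l : {D | Δ D ≠ 0} => l.1)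
    (t := fun y => ‖fr m σ e' (f y)‖ * ∏ l, ‖ξ l y‖ ^ (K l : ℝ)) (m := m) (Md.lb_one.2 fun I => by
      obtain ⟨a, a1, a2⟩ := k3 fun _ => I
      obtain ⟨C, -, hC⟩ := bdd_near (hol_iff.2 a1).cont.norm
      refine ⟨C, ?_⟩
      filter_upwards [a2, hC, off_iff k4, at_near hc, hf.cont.continuousAt.eventually (at_near he')]
        with y b1 b2 b3 b4 b5 b6
      rw [← b1 y rfl (fun G c c' => b6.1 ⟨G, c, c'⟩) (k5 y ▸ Finset.prod_ne_zero_iff.2 fun l _ =>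
        pow_ne_zero _ (b3.1 b6.2 l)), minors_eq (hf.at y) b4 b5, k5, norm_mul,
        ← wt_nat _ fun l : {D | Δ D ≠ 0} => (rfl : (K l : ℝ) = K l), ← mul_assoc,
        mul_comm (σ _), norm_mul, norm_pow] at b2
      exact (mul_right_comm _ _ _).trans_le b2)
    (Md.ca_of he) (Md.ca_of hc) ((hf.at x).anV he') fun _ => by positivity) I
  obtain ⟨C', hC'⟩ := (bdP_of_one (u := fun y => if f y ∈ ⋃₀ 𝒢 then 0 else
      fr m σ e' (f y) * minor f e e' I y ^ m) (c := fun l => K l.1) (C := max C 0) continuousAt_id k4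
    (hC.mono fun y a b => by
      split_ifs with c
      · simp
      · rw [norm_mul, norm_pow, mul_right_comm]
        exact (a ⟨c, b⟩).trans (le_max_left _ _))).mono continuousAt_id (fun l _ => hK l) ζ hζ
  refine ⟨C', hC'.mono fun y a b c => ?_⟩
  simpa only [if_neg b, norm_mul, norm_pow, id] using a c

theorem tau_of (hΔ : J.IsSNC (Cm n) Δ) (hf : HolM n p f)
    (h : ∃ (m : ℕ) (K : Set X → ℕ) (𝒢 : Set (Set Y)) (σ : ℕ → Y → ℂ) (y : Y), 0 < m ∧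
      (∀ D, (K D : ℝ) ≤ m * Δ D) ∧ 𝒢.Finite ∧ (∀ G ∈ 𝒢, J.IsPrime (Cm p) G) ∧
      (∀ b, PullSec (Cm n) (Cm p) m K 𝒢 id f (minors n p m id f) (σ b)) ∧ (∀ G ∈ 𝒢, y ∉ G) ∧
      σ 0 y ≠ 0 ∧
      Surjective fun (ξ : Cm p) (b : Fin j) => J.dif (Cm p) (fun w => σ (b + 1) w / σ 0 w) y ξ) :
    ∃ (m : ℕ) (Q : Set Y) (τ : Fin (j + 1) → Chart p Y → Y → ℂ), 0 < m ∧ Thin p Q ∧
      (∀ b, TB n p f (fun l : {D : Set X | Δ D ≠ 0} => l.1) (fun l => m * Δ l) m Q (τ b)) ∧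
      Rk p Qᶜ ((Bd.can p Y).pow m) τ := by
  obtain ⟨m, K, 𝒢, σ, y, h1, h2, h3, h4, h5, h6, h7, h8⟩ := h
  have := h3.to_subtype
  have hQ : Thin p (⋃₀ 𝒢) := sUnion_eq_iUnion ▸ .iUnion fun G : 𝒢 => prime_thin (h4 _ G.2)
  have k := fun b => tb_of hΔ hf h2 (h5 b)
  have hy : y ∉ ⋃₀ 𝒢 := fun ⟨G, a, b⟩ => h6 G a b
  exact ⟨m, _, _, h1, hQ, fun b => k _, y, hy, rk_of (fun b => (k b).hol _ y (at_chart y) hy) h7 h8⟩

end Vale.Agent.P281Z.Tp
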